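import Mathlib

/-!
Elementary estimates for the cosine `cs t = cos (2 π t)` and for finite products of such cosines.
-/

set_option autoImplicit false
open Finset Real

namespace Crest.Agent.R104

/-- The one-periodic cosine. -/
noncomputable def cs (t : ℝ) : ℝ := Real.cos (2 * π * t)

lemma cs_add_int (t : ℝ) (j : ℤ) : cs (t + j) = cs t := by
  unfold cs
  rw [mul_add, mul_comm (2 * π) (j : ℝ), Real.cos_add_int_mul_two_pi]

lemma cs_neg (t : ℝ) : cs (-t) = cs t := by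
  unfold cs
  rw [mul_neg, Real.cos_neg]

lemma cs_of_add_eq_int {s t : ℝ} {j : ℤ} (h : s + t = j) : cs s = cs t := by
  have : s = -t + j := by linarith
  rw [this, cs_add_int, cs_neg]

lemma abs_cs_le (t : ℝ) : |cs t| ≤ 1 := Real.abs_cos_le_one _

lemma cs_le (t : ℝ) : cs t ≤ 1 := Real.cos_le_one _

lemma cs_lip (s t : ℝ) : |cs s - cs t| ≤ 7 * |s - t| := by
  unfold cs
  refine (Real.abs_cos_sub_cos_le _ _).trans ?_
  rw [← mul_sub, abs_mul, abs_of_pos (by positivity : (0:ℝ) < 2 * π)]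
  have := Real.pi_lt_d2
  have := abs_nonneg (s - t)
  nlinarith

lemma cs_lower (s : ℝ) : 1 - 20 * s ^ 2 ≤ cs s := by
  unfold cs
  refine le_trans ?_ (Real.one_sub_sq_div_two_le_cos)
  have h1 := Real.pi_lt_d2
  have h2 := Real.pi_pos
  have h3 : π ^ 2 ≤ 10 := by nlinarith
  have : (2 * π * s) ^ 2 / 2 = 2 * π ^ 2 * s ^ 2 := by ring
  rw [this]
  have := sq_nonneg s
  nlinarith

lemma exp_le_one_sub {t : ℝ} (h0 : 0 ≤ t) (h1 : t ≤ 1 / 2) : Real.exp (-(2 * t)) ≤ 1 - t := by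
  have h := Real.add_one_le_exp (2 * t)
  rw [Real.exp_neg, inv_le_comm₀ (Real.exp_pos _) (by linarith)]
  refine le_trans ?_ h
  rw [inv_le_iff_one_le_mul₀ (by linarith)]
  nlinarith

lemma cs_half {s : ℝ} (h : |s| ≤ 3 / 20) : 1 / 2 ≤ cs s := by
  have := cs_lower s
  have h2 : s ^ 2 ≤ (3 / 20) ^ 2 := sq_le_sq' (abs_le.1 h).1 (abs_le.1 h).2
  nlinarith

lemma cs_exp {s : ℝ} (h : |s| ≤ 3 / 20) : Real.exp (-(40 * s ^ 2)) ≤ cs s := by
  have h1 := cs_lower s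
  have h2 : s ^ 2 ≤ (3 / 20) ^ 2 := sq_le_sq' (abs_le.1 h).1 (abs_le.1 h).2
  have h3 := exp_le_one_sub (t := 20 * s ^ 2) (by positivity) (by nlinarith)
  have : 2 * (20 * s ^ 2) = 40 * s ^ 2 := by ring
  rw [this] at h3
  linarith

lemma geom_le {l : ℝ} (h0 : 0 ≤ l) (h1 : l < 1) (g : ℕ) :
    ∑ i ∈ range g, l ^ i ≤ (1 - l)⁻¹ := by
  rw [← tsum_geometric_of_lt_one h0 h1]
  exact (summable_geometric_of_lt_one h0 h1).sum_le_tsum _ (fun i _ => by positivity)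

lemma geom_le' {l : ℝ} (h0 : 0 ≤ l) (h1 : l < 1) (g : ℕ) :
    ∑ i ∈ range g, l ^ (g - i) ≤ (1 - l)⁻¹ := by
  have : ∑ i ∈ range g, l ^ (g - i) ≤ ∑ i ∈ range g, l ^ (g - 1 - i) := by
    refine sum_le_sum (fun i _ => pow_le_pow_of_le_one h0 h1.le (by omega))
  refine this.trans ?_
  rw [Finset.sum_range_reflect (fun i => l ^ i) g]
  exact geom_le h0 h1 g

/-- The product of the cosines over a gap. -/
lemma gap_prod {l D : ℝ} (h0 : 0 ≤ l) (h1 : l < 1) (hD0 : 0 ≤ D) (hD : D ≤ 1 / 20) (g : ℕ)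
    (s : ℕ → ℝ) (hs : ∀ i < g, |s i| ≤ l ^ i / 20 + l ^ (g - i) / 20 + D) :
    (∀ i < g, 1 / 2 ≤ cs (s i)) ∧
      Real.exp (-((1 - l)⁻¹ + 120 * (g * D ^ 2))) ≤ ∏ i ∈ range g, cs (s i) := by
  have hsmall : ∀ i < g, |s i| ≤ 3 / 20 := by
    intro i hi
    have a1 : l ^ i ≤ 1 := pow_le_one₀ h0 h1.le
    have a2 : l ^ (g - i) ≤ 1 := pow_le_one₀ h0 h1.le
    have := hs i hi
    linarith
  refine ⟨fun i hi => cs_half (hsmall i hi), ?_⟩
  have h2 : ∏ i ∈ range g, Real.exp (-(40 * (s i) ^ 2)) ≤ ∏ i ∈ range g, cs (s i) :=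
    prod_le_prod (fun i _ => (Real.exp_pos _).le) (fun i hi => cs_exp (hsmall i (mem_range.1 hi)))
  refine le_trans ?_ h2
  rw [← Real.exp_sum, Real.exp_le_exp, sum_neg_distrib, neg_le_neg_iff]
  have h3 : ∀ i ∈ range g, 40 * (s i) ^ 2 ≤ l ^ i / 2 + l ^ (g - i) / 2 + 120 * D ^ 2 := by
    intro i hi
    have hi' := hs i (mem_range.1 hi)
    have a1 : l ^ i ≤ 1 := pow_le_one₀ h0 h1.le
    have a2 : l ^ (g - i) ≤ 1 := pow_le_one₀ h0 h1.le
    have b1 : 0 ≤ l ^ i := by positivity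
    have b2 : 0 ≤ l ^ (g - i) := by positivity
    have h4 : (s i) ^ 2 ≤ (l ^ i / 20 + l ^ (g - i) / 20 + D) ^ 2 :=
      sq_le_sq' (abs_le.1 hi').1 (abs_le.1 hi').2
    set a := l ^ i
    set b := l ^ (g - i)
    nlinarith [sq_nonneg (a / 20 - b / 20), sq_nonneg (a / 20 - D), sq_nonneg (b / 20 - D),
      mul_le_mul_of_nonneg_left a1 b1, mul_le_mul_of_nonneg_left a2 b2]
  refine (sum_le_sum h3).trans ?_
  rw [sum_add_distrib, sum_add_distrib, ← sum_div, ← sum_div, sum_const, card_range, nsmul_eq_mul]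
  have := geom_le h0 h1 g
  have := geom_le' h0 h1 g
  nlinarith

lemma prod_perturb_lower {L : ℕ} {a v : ℕ → ℝ} {m ε : ℝ} (hm : 0 < m) (hε : 0 ≤ ε)
    (hL : L * ε ≤ m / 4) (ha : ∀ i < L, m ≤ |a i|) (hv : ∀ i < L, |v i - a i| ≤ ε) :
    3 / 4 * ∏ i ∈ range L, |a i| ≤ ∏ i ∈ range L, |v i| := by
  rcases Nat.eq_zero_or_pos L with rfl | hLpos
  · simp only [range_zero, prod_empty]; norm_num
  have hL1 : (1 : ℝ) ≤ L := by exact_mod_cast hLpos
  have hεm : ε / m ≤ 1 / 4 := by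
    rw [div_le_iff₀ hm]; nlinarith
  have hεm0 : 0 ≤ ε / m := by positivity
  have h1 : ∏ i ∈ range L, ((1 - ε / m) * |a i|) ≤ ∏ i ∈ range L, |v i| := by
    refine prod_le_prod (fun i _ => mul_nonneg (by linarith) (abs_nonneg _)) (fun i hi => ?_)
    have h2 := ha i (mem_range.1 hi)
    have h3 := hv i (mem_range.1 hi)
    have h4 : |a i| - |v i| ≤ |v i - a i| := by
      rw [abs_sub_comm]; exact abs_sub_abs_le_abs_sub _ _
    have h5 : ε ≤ ε / m * |a i| := by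
      calc ε = ε / m * m := by field_simp
        _ ≤ ε / m * |a i| := mul_le_mul_of_nonneg_left h2 hεm0
    linarith
  refine le_trans ?_ h1
  rw [prod_mul_distrib, prod_const, card_range]
  refine mul_le_mul_of_nonneg_right ?_ (prod_nonneg (fun i _ => abs_nonneg _))
  have h6 := one_add_mul_le_pow (a := -(ε / m)) (by linarith) L
  have h7 : L * (ε / m) ≤ 1 / 4 := by
    rw [← mul_div_assoc, div_le_iff₀ hm]; linarith
  have : (1 + -(ε / m)) = 1 - ε / m := by ring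
  rw [this] at h6
  linarith

lemma prod_perturb_upper {L : ℕ} {a v : ℕ → ℝ} {m ε : ℝ} (hm : 0 < m) (hε : 0 ≤ ε)
    (hL : L * ε ≤ m) (ha : ∀ i < L, m ≤ |a i|) (hv : ∀ i < L, |v i - a i| ≤ ε) :
    ∏ i ∈ range L, |v i| ≤ 3 * ∏ i ∈ range L, |a i| := by
  have hεm0 : 0 ≤ ε / m := by positivity
  have h1 : ∏ i ∈ range L, |v i| ≤ ∏ i ∈ range L, (Real.exp (ε / m) * |a i|) := by
    refine prod_le_prod (fun i _ => abs_nonneg _) (fun i hi => ?_)
    have h2 := ha i (mem_range.1 hi)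
    have h3 := hv i (mem_range.1 hi)
    have h4 : |v i| - |a i| ≤ |v i - a i| := abs_sub_abs_le_abs_sub _ _
    have h5 : ε ≤ ε / m * |a i| := by
      calc ε = ε / m * m := by field_simp
        _ ≤ ε / m * |a i| := mul_le_mul_of_nonneg_left h2 hεm0
    have h6 := Real.add_one_le_exp (ε / m)
    nlinarith [abs_nonneg (a i)]
  refine h1.trans ?_
  rw [prod_mul_distrib, prod_const, card_range, ← Real.exp_nat_mul]
  refine mul_le_mul_of_nonneg_right ?_ (prod_nonneg (fun i _ => abs_nonneg _))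
  have h7 : L * (ε / m) ≤ 1 := by
    rw [← mul_div_assoc, div_le_iff₀ hm]; linarith
  calc Real.exp (L * (ε / m)) ≤ Real.exp 1 := Real.exp_le_exp.2 h7
    _ ≤ 3 := by have := Real.exp_one_lt_d9; linarith

lemma prod_split (L g : ℕ) (v : ℕ → ℝ) :
    ∏ i ∈ range (L + g + L), v i =
      (∏ i ∈ range L, v i) * (∏ i ∈ range g, v (L + i)) * ∏ i ∈ range L, v (L + g + i) := by
  rw [prod_range_add, prod_range_add]

/-- Two perturbed windows separated by a gap: lower bounds. -/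
lemma two_windows_lower {L g : ℕ} {a b v : ℕ → ℝ} {m ε A E : ℝ} (hm : 0 < m) (hm2 : m ≤ 1 / 2)
    (hε : 0 ≤ ε) (hL : L * ε ≤ m / 4) (hA : 0 ≤ A) (hE : 0 ≤ E)
    (ha : ∀ i < L, m ≤ |a i|) (hb : ∀ i < L, m ≤ |b i|)
    (hAa : A ≤ ∏ i ∈ range L, |a i|) (hAb : A ≤ ∏ i ∈ range L, |b i|)
    (h1 : ∀ i < L, |v i - a i| ≤ ε) (h3 : ∀ i < L, |v (L + g + i) - b i| ≤ ε)
    (h2 : ∀ i < g, 1 / 2 ≤ v (L + i)) (h2' : E ≤ ∏ i ∈ range g, v (L + i)) :
    (∀ i < L + g + L, m - ε ≤ |v i|) ∧ A ^ 2 / 2 * E ≤ ∏ i ∈ range (L + g + L), |v i| := by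
  constructor
  · intro i hi
    by_cases c1 : i < L
    · have := abs_sub_abs_le_abs_sub (a i) (v i)
      rw [abs_sub_comm] at this
      linarith [ha i c1, h1 i c1]
    · by_cases c2 : i < L + g
      · obtain ⟨j, rfl⟩ : ∃ j, i = L + j := ⟨i - L, by omega⟩
        have := h2 j (by omega)
        have := le_abs_self (v (L + j))
        linarith
      · obtain ⟨j, rfl⟩ : ∃ j, i = L + g + j := ⟨i - (L + g), by omega⟩
        have := abs_sub_abs_le_abs_sub (b j) (v (L + g + j))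
        rw [abs_sub_comm] at this
        linarith [hb j (by omega), h3 j (by omega)]
  · rw [prod_split L g (fun i => |v i|)]
    have p1 := prod_perturb_lower hm hε hL ha h1
    have p3 := prod_perturb_lower (v := fun i => v (L + g + i)) hm hε hL hb h3
    have p2 : E ≤ ∏ i ∈ range g, |v (L + i)| := by
      refine h2'.trans (le_of_eq (prod_congr rfl (fun i hi => ?_)))
      rw [abs_of_nonneg (by linarith [h2 i (mem_range.1 hi)])]
    have q1 : 3 / 4 * A ≤ ∏ i ∈ range L, |v i| := by linarith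
    have q3 : 3 / 4 * A ≤ ∏ i ∈ range L, |v (L + g + i)| := by linarith
    calc A ^ 2 / 2 * E ≤ (3 / 4 * A) * E * (3 / 4 * A) := by
          have : 0 ≤ A ^ 2 * E := by positivity
          nlinarith
      _ ≤ _ := by
          refine mul_le_mul (mul_le_mul q1 p2 hE (le_trans (by positivity) q1)) q3
            (by positivity) ?_
          exact mul_nonneg (le_trans (by positivity) q1) (hE.trans p2)

/-- Two perturbed windows inside a product of numbers of size at most one: upper bound. -/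
lemma two_windows_upper {L g M : ℕ} {a v : ℕ → ℝ} {m ε : ℝ} (hm : 0 < m)
    (hε : 0 ≤ ε) (hL : L * ε ≤ m) (hM : L + g + L ≤ M) (ha : ∀ i < L, m ≤ |a i|)
    (h1 : ∀ i < L, |v i - a i| ≤ ε) (h3 : ∀ i < L, |v (L + g + i) - a i| ≤ ε)
    (hv : ∀ i, |v i| ≤ 1) :
    ∏ i ∈ range M, |v i| ≤ 9 * (∏ i ∈ range L, |a i|) ^ 2 := by
  obtain ⟨r, rfl⟩ : ∃ r, M = L + g + L + r := ⟨M - (L + g + L), by omega⟩
  rw [prod_range_add, prod_split L g (fun i => |v i|)]
  have p1 := prod_perturb_upper hm hε hL ha h1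
  have p3 := prod_perturb_upper (v := fun i => v (L + g + i)) hm hε hL ha h3
  have p2 : ∏ i ∈ range g, |v (L + i)| ≤ 1 := prod_le_one (fun i _ => abs_nonneg _) (fun i _ => hv _)
  have p4 : ∏ i ∈ range r, |v (L + g + L + i)| ≤ 1 :=
    prod_le_one (fun i _ => abs_nonneg _) (fun i _ => hv _)
  have n1 : 0 ≤ ∏ i ∈ range L, |v i| := prod_nonneg (fun i _ => abs_nonneg _)
  have n2 : 0 ≤ ∏ i ∈ range g, |v (L + i)| := prod_nonneg (fun i _ => abs_nonneg _)
  have n3 : 0 ≤ ∏ i ∈ range L, |v (L + g + i)| := prod_nonneg (fun i _ => abs_nonneg _)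
  have n4 : 0 ≤ ∏ i ∈ range r, |v (L + g + L + i)| := prod_nonneg (fun i _ => abs_nonneg _)
  have n5 : 0 ≤ ∏ i ∈ range L, |a i| := prod_nonneg (fun i _ => abs_nonneg _)
  set W := ∏ i ∈ range L, |a i|
  calc _ ≤ (3 * W) * 1 * (3 * W) * 1 := by gcongr
    _ = 9 * W ^ 2 := by ring

end Crest.Agent.R104
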