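import Mathlib
import Crest.Agent.R104.Basic

/-!
The recursive construction of frequencies `p β ^ k` at which the cosine products stay large while
the conjugate on the unit circle becomes very small.
-/

set_option autoImplicit false
open Finset Real

namespace Crest.Agent.R104

/-- The data of one frequency: `p`, `q`, `w` are the conjugates of an algebraic integer, the
active window is `[0, L)`, `D` bounds the conjugate on the circle, `m` the single cosines in the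
window and `A` their products. -/
structure St (β : ℝ) (α : ℂ) (p q : ℝ) (w : ℂ) (L : ℕ) (D m A : ℝ) : Prop where
  int : ∀ k : ℤ, ∃ j : ℤ, p * β ^ k + (q * β ^ (-k) + 2 * (w * α ^ k).re) = j
  hp : |p| ≤ 1 / 20
  hq : |q| ≤ β ^ L / 20
  hpL : 1 ≤ |p| * β ^ L
  hw : 2 * ‖w‖ ≤ D
  hD0 : 0 < D
  hD : D ≤ 1 / 20
  hm0 : 0 < m
  hm : m ≤ 1 / 2
  mx : ∀ i < L, m ≤ |cs (p * β ^ i)|
  my : ∀ i < L, m ≤ |cs (q * β⁻¹ ^ i)|
  hA : 0 ≤ A
  Ax : A ≤ ∏ i ∈ range L, |cs (p * β ^ i)|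
  Ay : A ≤ ∏ i ∈ range L, |cs (q * β⁻¹ ^ i)|

lemma gap_prod' {l D : ℝ} (h0 : 0 ≤ l) (h1 : l < 1) (hD0 : 0 ≤ D) (hD : D ≤ 1 / 20) (g : ℕ)
    (v : ℕ → ℝ) (hs : ∀ i < g, ∃ s, v i = cs s ∧ |s| ≤ l ^ i / 20 + l ^ (g - i) / 20 + D) :
    (∀ i < g, 1 / 2 ≤ v i) ∧
      Real.exp (-((1 - l)⁻¹ + 120 * (g * D ^ 2))) ≤ ∏ i ∈ range g, v i := by
  choose! s hs1 hs2 using hs
  obtain ⟨a, b⟩ := gap_prod h0 h1 hD0 hD g s hs2
  refine ⟨fun i hi => by rw [hs1 i hi]; exact a i hi, b.trans (le_of_eq ?_)⟩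
  exact prod_congr rfl (fun i hi => (hs1 i (mem_range.1 hi)).symm)

lemma central_le {α w : ℂ} {D : ℝ} (hα : ‖α‖ = 1) (hw : 2 * ‖w‖ ≤ D) (k : ℤ) :
    |2 * (w * α ^ k).re| ≤ D := by
  rw [abs_mul, abs_two]
  have := Complex.abs_re_le_norm (w * α ^ k)
  rw [norm_mul, norm_zpow, hα, one_zpow, mul_one] at this
  linarith

lemma near_pos {β : ℝ} {α w : ℂ} {p q D : ℝ} (hα : ‖α‖ = 1) (hw : 2 * ‖w‖ ≤ D)
    (int : ∀ k : ℤ, ∃ j : ℤ, p * β ^ k + (q * β ^ (-k) + 2 * (w * α ^ k).re) = j) (i : ℕ) :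
    ∃ (z : ℝ) (j : ℤ), |z| ≤ D ∧ p * β ^ i + (q * β⁻¹ ^ i + z) = j := by
  obtain ⟨j, hj⟩ := int i
  refine ⟨_, j, central_le hα hw i, ?_⟩
  rw [← hj, zpow_neg β, zpow_natCast β, inv_pow]

lemma near_neg {β : ℝ} {α w : ℂ} {p q D : ℝ} (hα : ‖α‖ = 1) (hw : 2 * ‖w‖ ≤ D)
    (int : ∀ k : ℤ, ∃ j : ℤ, p * β ^ k + (q * β ^ (-k) + 2 * (w * α ^ k).re) = j) (i : ℕ) :
    ∃ (z : ℝ) (j : ℤ), |z| ≤ D ∧ p * β⁻¹ ^ i + (q * β ^ i + z) = j := by
  obtain ⟨j, hj⟩ := int (-(i : ℤ))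
  refine ⟨_, j, central_le hα hw (-(i : ℤ)), ?_⟩
  rw [← hj, neg_neg, zpow_neg β, zpow_natCast β, inv_pow]

lemma inv_pow_add_mul {β : ℝ} (hβ : β ≠ 0) (a b : ℕ) : β⁻¹ ^ (a + b) * β ^ a = β⁻¹ ^ b := by
  rw [pow_add, inv_pow]; field_simp

lemma pow_add_mul_inv {β : ℝ} (hβ : β ≠ 0) (a b : ℕ) : β ^ (a + b) * β⁻¹ ^ a = β ^ b := by
  rw [pow_add, inv_pow]; field_simp

section
variable {β : ℝ} {α : ℂ} {p q : ℝ} {w : ℂ} {L : ℕ} {D m A : ℝ}

lemma inv_lt_one' (hβ : 1 < β) : β⁻¹ < 1 := inv_lt_one_of_one_lt₀ hβ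

lemma St.p_small (hβ : 1 < β) (h : St β α p q w L D m A) (i : ℕ) :
    |p * β⁻¹ ^ i| ≤ β⁻¹ ^ i / 20 := by
  have : 0 ≤ β⁻¹ ^ i := by positivity
  rw [abs_mul, abs_of_nonneg this]
  nlinarith [h.hp]

lemma St.q_small (hβ : 1 < β) (h : St β α p q w L D m A) (i : ℕ) :
    |q * β⁻¹ ^ (L + i)| ≤ β⁻¹ ^ i / 20 := by
  have h0 : 0 ≤ β⁻¹ ^ (L + i) := by positivity
  rw [abs_mul, abs_of_nonneg h0, ← inv_pow_add_mul (by positivity : β ≠ 0) L i]
  nlinarith [h.hq]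

lemma St.twenty_le (hβ : 1 < β) (h : St β α p q w L D m A) : 20 ≤ β ^ L := by
  have h1 := h.hpL
  have h2 := h.hp
  have : 0 ≤ β ^ L := by positivity
  nlinarith

lemma St.L_pos (hβ : 1 < β) (h : St β α p q w L D m A) : 1 ≤ L := by
  by_contra hL
  have : L = 0 := by omega
  have h2 := h.twenty_le hβ
  rw [this] at h2
  norm_num at h2

lemma inv_pow_anti (hβ : 1 < β) {a b : ℕ} (hab : a ≤ b) : β⁻¹ ^ b ≤ β⁻¹ ^ a :=
  pow_le_pow_of_le_one (by positivity) (inv_lt_one' hβ).le hab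

/-- The cosines just after the window. -/
lemma St.after (hβ : 1 < β) (hα : ‖α‖ = 1) (h : St β α p q w L D m A) (g : ℕ) :
    (∀ i < g, 1 / 2 ≤ cs (p * β ^ (L + i))) ∧
      Real.exp (-((1 - β⁻¹)⁻¹ + 120 * (g * D ^ 2))) ≤ ∏ i ∈ range g, cs (p * β ^ (L + i)) := by
  refine gap_prod' (by positivity) (inv_lt_one' hβ) h.hD0.le h.hD g _ (fun i _ => ?_)
  obtain ⟨z, j, hz, hj⟩ := near_pos hα h.hw h.int (L + i)
  refine ⟨_, cs_of_add_eq_int hj, ?_⟩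
  have h1 := h.q_small hβ i
  have h2 : 0 ≤ β⁻¹ ^ (g - i) := by positivity
  have := abs_add_le (q * β⁻¹ ^ (L + i)) z
  linarith

/-- One may enlarge the window. -/
lemma St.extend (hβ : 1 < β) (hα : ‖α‖ = 1) (h : St β α p q w L D m A) {L' : ℕ} (hL : L ≤ L') :
    St β α p q w L' D m 0 := by
  obtain ⟨g, rfl⟩ : ∃ g, L' = L + g := ⟨L' - L, by omega⟩
  have hpow : β ^ L ≤ β ^ (L + g) := pow_le_pow_right₀ hβ.le hL
  refine ⟨h.int, h.hp, h.hq.trans (by linarith), h.hpL.trans ?_, h.hw, h.hD0, h.hD, h.hm0, h.hm,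
    fun i hi => ?_, fun i hi => ?_, le_rfl, prod_nonneg (fun i _ => abs_nonneg _),
    prod_nonneg (fun i _ => abs_nonneg _)⟩
  · exact mul_le_mul_of_nonneg_left hpow (abs_nonneg _)
  · by_cases c : i < L
    · exact h.mx i c
    · obtain ⟨j, rfl⟩ : ∃ j, i = L + j := ⟨i - L, by omega⟩
      have := (h.after hβ hα g).1 j (by omega)
      have h2 := le_abs_self (cs (p * β ^ (L + j)))
      linarith [h.hm]
  · by_cases c : i < L
    · exact h.my i c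
    · obtain ⟨j, rfl⟩ : ∃ j, i = L + j := ⟨i - L, by omega⟩
      have h1 := h.q_small hβ j
      have h3 : β⁻¹ ^ j ≤ 1 := pow_le_one₀ (by positivity) (inv_lt_one' hβ).le
      have := cs_half (s := q * β⁻¹ ^ (L + j)) (by linarith)
      have h2 := le_abs_self (cs (q * β⁻¹ ^ (L + j)))
      linarith [h.hm]

/-- The product bound that follows from the bound on single factors. -/
lemma St.upgrade (h : St β α p q w L D m A) : St β α p q w L D m (m ^ L) := by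
  refine ⟨h.int, h.hp, h.hq, h.hpL, h.hw, h.hD0, h.hD, h.hm0, h.hm, h.mx, h.my,
    pow_nonneg h.hm0.le _, ?_, ?_⟩
  · have := prod_le_prod (s := range L) (f := fun _ => m) (fun _ _ => h.hm0.le)
      (fun i hi => h.mx i (mem_range.1 hi))
    simpa using this
  · have := prod_le_prod (s := range L) (f := fun _ => m) (fun _ _ => h.hm0.le)
      (fun i hi => h.my i (mem_range.1 hi))
    simpa using this

lemma St.weaken (h : St β α p q w L D m A) {m' A' : ℝ} (h0 : 0 < m') (hm : m' ≤ m)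
    (hA0 : 0 ≤ A') (hA : A' ≤ A) : St β α p q w L D m' A' :=
  ⟨h.int, h.hp, h.hq, h.hpL, h.hw, h.hD0, h.hD, h0, hm.trans h.hm,
    fun i hi => hm.trans (h.mx i hi), fun i hi => hm.trans (h.my i hi), hA0,
    hA.trans h.Ax, hA.trans h.Ay⟩

/-- The basic step `u ↦ u (1 - β ^ (-n))` with `n = L + g`. -/
lemma St.step (hβ : 1 < β) (hα : ‖α‖ = 1) (h : St β α p q w L D m A) {g : ℕ} (hg : L ≤ g)
    {D' : ℝ} (hD'0 : 0 < D') (hD' : D' ≤ 1 / 20) (hD'' : D * ‖1 - α⁻¹ ^ (L + g)‖ ≤ D')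
    (hε : L * (7 * (β⁻¹ ^ L / 20 + D')) ≤ m / 4) :
    St β α (p * (1 - β⁻¹ ^ (L + g))) (q * (1 - β ^ (L + g))) (w * (1 - α⁻¹ ^ (L + g)))
      (L + g + L) D' (m - 7 * (β⁻¹ ^ L / 20 + D'))
      (A ^ 2 / 2 * Real.exp (-((1 - β⁻¹)⁻¹ + 120 * (g * D ^ 2)))) := by
  have hβ0 : β ≠ 0 := by positivity
  have hα0 : α ≠ 0 := by rintro rfl; simp at hα
  have hl0 : 0 ≤ β⁻¹ := by positivity
  have hl1 := inv_lt_one' hβ
  have hL1 : (1 : ℝ) ≤ L := by exact_mod_cast h.L_pos hβ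
  have hlL : 0 ≤ β⁻¹ ^ L := by positivity
  have hε0 : 0 ≤ 7 * (β⁻¹ ^ L / 20 + D') := by positivity
  have hεm : 7 * (β⁻¹ ^ L / 20 + D') ≤ m / 4 := by nlinarith
  have hint : ∀ k : ℤ, ∃ j : ℤ, p * (1 - β⁻¹ ^ (L + g)) * β ^ k +
      (q * (1 - β ^ (L + g)) * β ^ (-k) + 2 * (w * (1 - α⁻¹ ^ (L + g)) * α ^ k).re) = j := by
    intro k
    obtain ⟨j1, h1⟩ := h.int k
    obtain ⟨j2, h2⟩ := h.int (k - (L + g : ℕ))
    refine ⟨j1 - j2, ?_⟩
    have e1 : β ^ (k - (L + g : ℕ)) = β⁻¹ ^ (L + g) * β ^ k := by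
      rw [zpow_sub₀ hβ0, zpow_natCast, inv_pow]; field_simp
    have e2 : β ^ (-(k - (L + g : ℕ))) = β ^ (L + g) * β ^ (-k) := by
      rw [neg_sub, sub_eq_add_neg, zpow_add₀ hβ0, zpow_natCast]
    have e3 : α ^ (k - (L + g : ℕ)) = α⁻¹ ^ (L + g) * α ^ k := by
      rw [zpow_sub₀ hα0, zpow_natCast, inv_pow]; field_simp
    have e4 : w * (1 - α⁻¹ ^ (L + g)) * α ^ k = w * α ^ k - w * (α⁻¹ ^ (L + g) * α ^ k) := by ring
    rw [e1, e2, e3] at h2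
    rw [e4, Complex.sub_re]
    push_cast
    linarith
  have hw' : 2 * ‖w * (1 - α⁻¹ ^ (L + g))‖ ≤ D' := by
    rw [norm_mul]
    have := norm_nonneg (1 - α⁻¹ ^ (L + g))
    nlinarith [h.hw]
  have hn0 : 0 ≤ β⁻¹ ^ (L + g) := by positivity
  have hn1 : β⁻¹ ^ (L + g) ≤ 1 := pow_le_one₀ hl0 hl1.le
  have hbn : 20 ≤ β ^ (L + g) := (h.twenty_le hβ).trans (pow_le_pow_right₀ hβ.le (by omega))
  -- estimates in the first window
  have f1 : ∀ i < L, |p * (1 - β⁻¹ ^ (L + g)) * β ^ i - p * β ^ i| ≤ β⁻¹ ^ L / 20 := by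
    intro i hi
    obtain ⟨r, hr⟩ : ∃ r, L + g = i + r := ⟨L + g - i, by omega⟩
    have : p * (1 - β⁻¹ ^ (L + g)) * β ^ i - p * β ^ i = -(p * β⁻¹ ^ r) := by
      rw [hr, ← inv_pow_add_mul hβ0 i r]; ring
    rw [this, abs_neg]
    have h1 := h.p_small hβ r
    have h2 := inv_pow_anti hβ (a := L) (b := r) (by omega)
    linarith
  -- estimates in the second window
  have f3 : ∀ i < L, |-(q * (1 - β ^ (L + g)) * β⁻¹ ^ (L + g + i)) - q * β⁻¹ ^ i|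
      ≤ β⁻¹ ^ L / 20 := by
    intro i _
    have : -(q * (1 - β ^ (L + g)) * β⁻¹ ^ (L + g + i)) - q * β⁻¹ ^ i
        = -(q * β⁻¹ ^ (L + (g + i))) := by
      rw [← inv_pow_add_mul hβ0 (L + g) i, ← add_assoc]; ring
    rw [this, abs_neg]
    have h1 := h.q_small hβ (g + i)
    have h2 := inv_pow_anti hβ (a := L) (b := g + i) (by omega)
    linarith
  have P := two_windows_lower (L := L) (g := g) (a := fun i => cs (p * β ^ i))
    (b := fun i => cs (q * β⁻¹ ^ i)) (v := fun i => cs (p * (1 - β⁻¹ ^ (L + g)) * β ^ i))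
    (E := Real.exp (-((1 - β⁻¹)⁻¹ + 120 * (g * D ^ 2))))
    h.hm0 h.hm hε0 hε h.hA (Real.exp_pos _).le h.mx h.my h.Ax h.Ay
    (fun i hi => by
      refine (cs_lip _ _).trans ?_
      have := f1 i hi
      linarith)
    (fun i hi => by
      obtain ⟨z, j, hz, hj⟩ := near_pos hα hw' hint (L + g + i)
      rw [cs_of_add_eq_int hj, ← cs_neg]
      refine (cs_lip _ _).trans ?_
      have h1 := f3 i hi
      have h2 : -(q * (1 - β ^ (L + g)) * β⁻¹ ^ (L + g + i) + z) - q * β⁻¹ ^ i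
        = (-(q * (1 - β ^ (L + g)) * β⁻¹ ^ (L + g + i)) - q * β⁻¹ ^ i) - z := by ring
      rw [h2]
      have h3 := abs_sub (-(q * (1 - β ^ (L + g)) * β⁻¹ ^ (L + g + i)) - q * β⁻¹ ^ i) z
      linarith)
  have Pg := gap_prod' hl0 hl1 h.hD0.le h.hD g
    (fun i => cs (p * (1 - β⁻¹ ^ (L + g)) * β ^ (L + i))) (fun i hi => by
      obtain ⟨z, j, hz, hj⟩ := near_pos hα h.hw h.int (L + i)
      obtain ⟨r, hr⟩ : ∃ r, g = i + r := ⟨g - i, by omega⟩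
      have hr' : g - i = r := by omega
      refine ⟨q * β⁻¹ ^ (L + i) + p * β⁻¹ ^ r + z, cs_of_add_eq_int (j := j) ?_, ?_⟩
      · rw [← hj, hr, ← add_assoc L i r, ← inv_pow_add_mul hβ0 (L + i) r]; ring
      · rw [hr']
        have h1 := h.q_small hβ i
        have h2 := h.p_small hβ r
        have h3 := abs_add_three (q * β⁻¹ ^ (L + i)) (p * β⁻¹ ^ r) z
        linarith)
  have Q := two_windows_lower (L := L) (g := g) (a := fun i => cs (p * β ^ i))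
    (b := fun i => cs (q * β⁻¹ ^ i)) (v := fun i => cs (q * (1 - β ^ (L + g)) * β⁻¹ ^ i))
    (E := Real.exp (-((1 - β⁻¹)⁻¹ + 120 * (g * D ^ 2))))
    h.hm0 h.hm hε0 hε h.hA (Real.exp_pos _).le h.mx h.my h.Ax h.Ay
    (fun i hi => by
      obtain ⟨z, j, hz, hj⟩ := near_pos hα hw' hint i
      have hj' : q * (1 - β ^ (L + g)) * β⁻¹ ^ i + (p * (1 - β⁻¹ ^ (L + g)) * β ^ i + z) = j := by
        linarith
      rw [cs_of_add_eq_int hj']
      refine (cs_lip _ _).trans ?_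
      have h1 := f1 i hi
      have h2 : p * (1 - β⁻¹ ^ (L + g)) * β ^ i + z - p * β ^ i
        = (p * (1 - β⁻¹ ^ (L + g)) * β ^ i - p * β ^ i) + z := by ring
      rw [h2]
      have h3 := abs_add_le (p * (1 - β⁻¹ ^ (L + g)) * β ^ i - p * β ^ i) z
      linarith)
    (fun i hi => by
      rw [← cs_neg]
      refine (cs_lip _ _).trans ?_
      have h1 := f3 i hi
      linarith)
  have Qg := gap_prod' hl0 hl1 h.hD0.le h.hD g
    (fun i => cs (q * (1 - β ^ (L + g)) * β⁻¹ ^ (L + i))) (fun i hi => by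
      obtain ⟨r, hr⟩ : ∃ r, g = i + r := ⟨g - i, by omega⟩
      have hr' : g - i = r := by omega
      obtain ⟨z, j, hz, hj⟩ := near_neg hα h.hw h.int r
      refine ⟨q * β⁻¹ ^ (L + i) + p * β⁻¹ ^ r + z, ?_, ?_⟩
      · rw [← cs_add_int _ j, ← hj, hr, ← add_assoc L i r, ← pow_add_mul_inv hβ0 (L + i) r]
        congr 1
        ring
      · rw [hr']
        have h1 := h.q_small hβ i
        have h2 := h.p_small hβ r
        have h3 := abs_add_three (q * β⁻¹ ^ (L + i)) (p * β⁻¹ ^ r) z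
        linarith)
  obtain ⟨P1, P2⟩ := P Pg.1 Pg.2
  obtain ⟨Q1, Q2⟩ := Q Qg.1 Qg.2
  refine ⟨hint, ?_, ?_, ?_, hw', hD'0, hD', by linarith [h.hm0], by linarith [h.hm], P1, Q1,
    by positivity, P2, Q2⟩
  · rw [abs_mul, abs_of_nonneg (by linarith : 0 ≤ 1 - β⁻¹ ^ (L + g))]
    nlinarith [h.hp, abs_nonneg p]
  · rw [abs_mul, abs_of_nonpos (by linarith : 1 - β ^ (L + g) ≤ 0), pow_add β (L + g) L]
    have h1 := h.hq
    have h2 : 0 ≤ β ^ L := by positivity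
    nlinarith [abs_nonneg q]
  · rw [abs_mul, abs_of_nonneg (by linarith : 0 ≤ 1 - β⁻¹ ^ (L + g)), pow_add β (L + g) L]
    have h1 := h.hpL
    have h2 : β⁻¹ ^ (L + g) * β ^ (L + g) = 1 := by rw [inv_pow]; field_simp
    have h3 : |p| * (1 - β⁻¹ ^ (L + g)) * (β ^ (L + g) * β ^ L)
        = (|p| * β ^ L) * (β ^ (L + g) - β⁻¹ ^ (L + g) * β ^ (L + g)) := by ring
    rw [h3, h2]
    nlinarith

end

end Crest.Agent.R104
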