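import Mathlib
import Crest.Agent.R104.State

/-!
Iteration of the basic step with Dirichlet's approximation theorem.
-/

set_option autoImplicit false
open Finset Real

namespace Crest.Agent.R104

lemma dirichlet_circle {γ : ℂ} (hγ : ‖γ‖ = 1) {N : ℕ} (hN : 0 < N) :
    ∃ n : ℕ, 0 < n ∧ n ≤ N ∧ ‖1 - γ ^ n‖ ≤ 7 / N := by
  obtain ⟨n, hn0, hnN, hn⟩ := Real.exists_nat_abs_mul_sub_round_le (γ.arg / (2 * π)) hN
  refine ⟨n, hn0, hnN, ?_⟩
  set j := round ((n : ℝ) * (γ.arg / (2 * π))) with hj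
  have hγ' : γ = Complex.exp (γ.arg * Complex.I) := by
    conv_lhs => rw [← Complex.norm_mul_exp_arg_mul_I γ, hγ]
    simp
  have hpi : (0 : ℝ) < π := Real.pi_pos
  have h1 : γ ^ n = Complex.exp (Complex.I * ((n * γ.arg - j * (2 * π) : ℝ) : ℂ)) := by
    conv_lhs => rw [hγ', ← Complex.exp_nat_mul]
    have : Complex.I * ((n * γ.arg - j * (2 * π) : ℝ) : ℂ)
        = n * (γ.arg * Complex.I) - j * (2 * π * Complex.I) := by
      push_cast; ring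
    rw [this, Complex.exp_sub, Complex.exp_int_mul_two_pi_mul_I, div_one]
  rw [norm_sub_rev, h1]
  refine (Real.norm_exp_I_mul_ofReal_sub_one_le).trans ?_
  rw [Real.norm_eq_abs]
  have h2 : n * γ.arg - j * (2 * π) = (2 * π) * (n * (γ.arg / (2 * π)) - j) := by
    field_simp
  rw [h2, abs_mul, abs_of_pos (by positivity : (0:ℝ) < 2 * π)]
  have hN' : (0 : ℝ) < N := by exact_mod_cast hN
  have h3 : 1 / ((N : ℝ) + 1) ≤ 1 / N := one_div_le_one_div_of_le hN' (by linarith)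
  have h4 := Real.pi_lt_d2
  calc 2 * π * |n * (γ.arg / (2 * π)) - j| ≤ 7 * (1 / N) :=
        mul_le_mul (by linarith) (hn.trans h3) (abs_nonneg _) (by norm_num)
    _ = 7 / N := by ring

lemma norm_one_sub_pow_le {γ : ℂ} (hγ : ‖γ‖ = 1) (j : ℕ) : ‖1 - γ ^ j‖ ≤ j * ‖1 - γ‖ := by
  induction j with
  | zero => simp
  | succ j ih =>
    have : 1 - γ ^ (j + 1) = (1 - γ ^ j) + γ ^ j * (1 - γ) := by ring
    rw [this]
    refine (norm_add_le _ _).trans ?_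
    rw [norm_mul, norm_pow, hγ, one_pow]
    push_cast
    linarith

section
variable {β : ℝ} {α : ℂ} {p q : ℝ} {w : ℂ} {L : ℕ} {D m A : ℝ}

lemma St.next (hβ : 1 < β) (hα : ‖α‖ = 1) (h : St β α p q w L D m A) {N : ℕ} (hN : L ^ 2 ≤ N)
    (hε : L * (7 * (β⁻¹ ^ L / 20 + 21 * D * L / N)) ≤ m / 4) :
    ∃ (p' q' : ℝ) (w' : ℂ) (L' : ℕ) (D' : ℝ),
      St β α p' q' w' L' D' (m - 7 * (β⁻¹ ^ L / 20 + 21 * D * L / N))
        (A ^ 2 / 2 * Real.exp (-((1 - β⁻¹)⁻¹ + 240 * (N * D ^ 2)))) ∧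
      D' ≤ 21 * D * L / N ∧ D' * L' ≤ 105 * D ∧ 2 * L ≤ L' := by
  have hL := h.L_pos hβ
  have hLN : L ≤ N := le_trans (by nlinarith) hN
  have hN0 : 0 < N := by omega
  have hN0' : (0 : ℝ) < N := by exact_mod_cast hN0
  have hL1 : (1 : ℝ) ≤ L := by exact_mod_cast hL
  have hD0 := h.hD0
  have hα' : ‖α⁻¹‖ = 1 := by rw [norm_inv, hα, inv_one]
  obtain ⟨n, hn0, hnN, hn⟩ := dirichlet_circle hα' hN0
  set j := 2 * L / n + 1 with hj
  have hj1 : 2 * L < n * j := by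
    rw [hj]; exact Nat.lt_mul_div_succ _ hn0
  have hj2 : n * j ≤ 2 * L + n := by
    rw [hj, mul_add, mul_one]
    have := Nat.mul_div_le (2 * L) n
    omega
  have hj3 : j ≤ 3 * L := by
    have := Nat.div_le_self (2 * L) n
    omega
  obtain ⟨g, hg⟩ : ∃ g, n * j = L + g := ⟨n * j - L, by omega⟩
  have hj4 : j * (L + g + L) ≤ 15 * N := by
    by_cases c : 2 * L < n
    · have : j = 1 := by rw [hj, Nat.div_eq_of_lt c]
      rw [this] at hg ⊢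
      omega
    · have : L + g + L ≤ 5 * L := by omega
      calc j * (L + g + L) ≤ (3 * L) * (5 * L) := Nat.mul_le_mul hj3 this
        _ = 15 * L ^ 2 := by ring
        _ ≤ 15 * N := by omega
  have hjpos : (0 : ℝ) < j := by positivity
  have hD'le : 7 * D * j / N ≤ 21 * D * L / N := by
    have : (j : ℝ) ≤ 3 * L := by exact_mod_cast hj3
    gcongr ?_ / _
    nlinarith
  have hlL : 0 ≤ β⁻¹ ^ L := by positivity
  have hb0 : 0 ≤ 21 * D * L / N := by positivity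
  have hD'small : 21 * D * L / N ≤ 1 / 20 := by
    have := h.hm
    nlinarith
  have hstep := h.step hβ hα (g := g) (by omega) (D' := 7 * D * j / N) (by positivity)
    (hD'le.trans hD'small)
    (by
      rw [← hg, pow_mul]
      have h1 := norm_one_sub_pow_le (γ := α⁻¹ ^ n) (by rw [norm_pow, hα', one_pow]) j
      calc D * ‖1 - (α⁻¹ ^ n) ^ j‖ ≤ D * (j * (7 / N)) := by
            refine mul_le_mul_of_nonneg_left (h1.trans ?_) hD0.le
            exact mul_le_mul_of_nonneg_left hn hjpos.le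
        _ = 7 * D * j / N := by ring)
    (le_trans (by gcongr) hε)
  refine ⟨_, _, _, L + g + L, 7 * D * j / N, hstep.weaken ?_ (by linarith) (by positivity) ?_,
    hD'le, ?_, by omega⟩
  · have := h.hm0
    nlinarith
  · refine mul_le_mul_of_nonneg_left ?_ (by positivity)
    rw [Real.exp_le_exp, neg_le_neg_iff]
    have : (g : ℝ) ≤ 2 * N := by exact_mod_cast (by omega : g ≤ 2 * N)
    nlinarith [sq_nonneg D]
  · have : (j : ℝ) * ((L + g + L : ℕ) : ℝ) ≤ 15 * N := by exact_mod_cast hj4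
    rw [div_mul_eq_mul_div, div_le_iff₀ hN0']
    nlinarith

lemma window_tail (hβ : 1 < β) {τ : ℝ} (hτ : 0 < τ) :
    ∃ L₀ : ℕ, ∀ (L k : ℕ), L₀ * 2 ^ k ≤ L → L * (7 * (β⁻¹ ^ L / 20)) ≤ τ / 2 ^ k := by
  have hlog : 0 < Real.log β := Real.log_pos hβ
  obtain ⟨L₀, hL₀⟩ := exists_nat_gt (1 / (Real.log β ^ 2 * τ))
  refine ⟨L₀, fun L k hL => ?_⟩
  have hL₀pos : (0 : ℝ) < L₀ := lt_trans (by positivity) hL₀
  have hL' : (L₀ : ℝ) * 2 ^ k ≤ L := by exact_mod_cast hL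
  have h2k : (0 : ℝ) < 2 ^ k := by positivity
  have hLpos : (0 : ℝ) < L := lt_of_lt_of_le (by positivity) hL'
  have h1 : (L * Real.log β) ^ 2 / 2 ≤ β ^ L := by
    have h := Real.quadratic_le_exp_of_nonneg (x := L * Real.log β) (by positivity)
    rw [Real.exp_nat_mul, Real.exp_log (by linarith)] at h
    have : 0 ≤ L * Real.log β := by positivity
    linarith
  have hβL : 0 < β ^ L := by positivity
  rw [div_lt_iff₀ (by positivity)] at hL₀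
  rw [inv_pow, le_div_iff₀ h2k]
  have h3 : (L : ℝ) * (7 * ((β ^ L)⁻¹ / 20)) * 2 ^ k = (7 / 20 * (L * 2 ^ k)) / β ^ L := by
    field_simp
  rw [h3, div_le_iff₀ hβL]
  have h4 : (2 : ℝ) ^ k ≤ L * (Real.log β ^ 2 * τ) := by
    have : 0 < Real.log β ^ 2 * τ := by positivity
    nlinarith
  have h5 : (L : ℝ) * 2 ^ k ≤ L * (L * (Real.log β ^ 2 * τ)) :=
    mul_le_mul_of_nonneg_left h4 hLpos.le
  have h6 : τ * ((L * Real.log β) ^ 2 / 2) ≤ τ * β ^ L := mul_le_mul_of_nonneg_left h1 hτ.le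
  have h7 : (0 : ℝ) ≤ L * 2 ^ k := by positivity
  nlinarith

lemma St.free_step (hβ : 1 < β) (hα : ‖α‖ = 1) (h : St β α p q w L D m A) {τ δ : ℝ}
    (hτ : 0 < τ) (hδ : 0 < δ) (h1 : L * (7 * (β⁻¹ ^ L / 20)) ≤ τ) (h2 : 8 * τ ≤ m) :
    ∃ (p' q' : ℝ) (w' : ℂ) (L' : ℕ) (D' : ℝ),
      St β α p' q' w' L' D' (m - 2 * τ) 0 ∧ D' ≤ δ ∧ D' * L' ≤ 105 * D ∧ L ≤ L' := by
  have hL1 : (1 : ℝ) ≤ L := by exact_mod_cast h.L_pos hβ
  have hD0 := h.hD0
  obtain ⟨N, hN⟩ := exists_nat_ge ((L : ℝ) ^ 2 + 147 * D * L ^ 2 / τ + 21 * D * L / δ)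
  have a1 : 0 ≤ 147 * D * L ^ 2 / τ := by positivity
  have a2 : 0 ≤ 21 * D * L / δ := by positivity
  have a3 : (0 : ℝ) < L ^ 2 := by positivity
  have hN0 : (0 : ℝ) < N := by linarith
  have b1 : L ^ 2 ≤ N := by exact_mod_cast (by linarith : (L : ℝ) ^ 2 ≤ N)
  have b2 : L * (7 * (21 * D * L / N)) ≤ τ := by
    have : 147 * D * L ^ 2 / τ ≤ N := by linarith
    rw [div_le_iff₀ hτ] at this
    have e : L * (7 * (21 * D * L / N)) = 147 * D * L ^ 2 / N := by ring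
    rw [e, div_le_iff₀ hN0]
    linarith
  have b3 : 21 * D * L / N ≤ δ := by
    have : 21 * D * L / δ ≤ N := by linarith
    rw [div_le_iff₀ hδ] at this
    rw [div_le_iff₀ hN0]
    linarith
  have b4 : L * (7 * (β⁻¹ ^ L / 20 + 21 * D * L / N)) ≤ 2 * τ := by linarith
  obtain ⟨p', q', w', L', D', s1, s2, s3, s4⟩ := h.next hβ hα b1 (by linarith)
  refine ⟨p', q', w', L', D', s1.weaken (by linarith) ?_ le_rfl s1.hA, s2.trans b3, s3, by omega⟩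
  have : 0 ≤ 7 * (β⁻¹ ^ L / 20 + 21 * D * L / N) := by positivity
  nlinarith

/-- The invariant of the main iteration. -/
def Inv (β : ℝ) (α : ℂ) (μ ρ a κ : ℝ) (L₀ k : ℕ) : Prop :=
  ∃ (p q : ℝ) (w : ℂ) (L : ℕ) (D : ℝ), St β α p q w L D (μ * (1 + 1 / 2 ^ k)) (a ^ 2 ^ k / κ) ∧
    D ≤ ρ ^ ((k + 8) * 2 ^ k) ∧ D * L ≤ ρ ^ (2 ^ (k + 1) + 2) ∧ L₀ * 2 ^ k ≤ L

lemma rho_bound {ρ : ℝ} (hρ0 : 0 < ρ) (hρ : ρ ≤ 1 / 2) (k : ℕ) :
    ρ ^ ((k + 8) * 2 ^ k) ≤ ρ / 2 ^ k := by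
  have h1 : ρ ^ ((k + 8) * 2 ^ k) ≤ ρ ^ (k + 1) := by
    refine pow_le_pow_of_le_one hρ0.le (by linarith) ?_
    have : 1 ≤ 2 ^ k := Nat.one_le_two_pow
    nlinarith
  refine h1.trans ?_
  rw [pow_succ, div_eq_mul_inv, mul_comm, ← inv_pow]
  refine mul_le_mul_of_nonneg_left (pow_le_pow_left₀ hρ0.le (by linarith) k) hρ0.le

lemma Inv.succ (hβ : 1 < β) (hα : ‖α‖ = 1) {μ ρ a : ℝ} {L₀ k : ℕ} (hμ : 0 < μ) (hρ0 : 0 < ρ)
    (hρ : 1176 * ρ ≤ μ) (ha : 0 ≤ a)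
    (hL₀ : ∀ (L k : ℕ), L₀ * 2 ^ k ≤ L → L * (7 * (β⁻¹ ^ L / 20)) ≤ (μ / 8) / 2 ^ k)
    (h : Inv β α μ ρ a (Real.exp (-((1 - β⁻¹)⁻¹ + 480)) / 2) L₀ k) :
    Inv β α μ ρ a (Real.exp (-((1 - β⁻¹)⁻¹ + 480)) / 2) L₀ (k + 1) := by
  obtain ⟨p, q, w, L, D, s, h1, h2, h3⟩ := h
  set κ := Real.exp (-((1 - β⁻¹)⁻¹ + 480)) / 2 with hκ
  have hκ0 : 0 < κ := by positivity
  have hD0 := s.hD0
  have hD := s.hD
  have h2k : (0 : ℝ) < 2 ^ k := by positivity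
  have h2k' : (0 : ℝ) < 1 / 2 ^ k := by positivity
  have hμ1 : μ ≤ 1 / 2 := by
    have := s.hm
    nlinarith
  have hρ1 : ρ ≤ 1 / 2000 := by linarith
  have hL1 : (1 : ℝ) ≤ L := by exact_mod_cast s.L_pos hβ
  have hE1 : D * L ≤ 1 := h2.trans (pow_le_one₀ hρ0.le (by linarith))
  set N := ⌈1 / D ^ 2⌉₊ with hN
  have hN1 : 1 / D ^ 2 ≤ N := Nat.le_ceil _
  have hN2 : (N : ℝ) < 1 / D ^ 2 + 1 := Nat.ceil_lt_add_one (by positivity)
  have hD2 : 0 < D ^ 2 := by positivity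
  have hN0 : (0 : ℝ) < N := lt_of_lt_of_le (by positivity) hN1
  have hN3 : 1 ≤ N * D ^ 2 := by rwa [div_le_iff₀ hD2] at hN1
  have hN4 : N * D ^ 2 ≤ 2 := by
    have : (N : ℝ) * D ^ 2 < (1 / D ^ 2 + 1) * D ^ 2 := mul_lt_mul_of_pos_right hN2 hD2
    rw [add_mul, one_div_mul_cancel hD2.ne'] at this
    nlinarith
  have hDL0 : 0 ≤ D * L := by positivity
  have b1 : L ^ 2 ≤ N := by
    have : (L : ℝ) ^ 2 * D ^ 2 ≤ N * D ^ 2 := by
      have : (L : ℝ) ^ 2 * D ^ 2 = (D * L) ^ 2 := by ring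
      nlinarith
    exact_mod_cast le_of_mul_le_mul_right this hD2
  have b2 : 21 * D * L / N ≤ 21 * D ^ 2 * (D * L) := by
    rw [div_le_iff₀ hN0]
    nlinarith
  have b3 : L * (7 * (21 * D * L / N)) ≤ (μ / 8) / 2 ^ k := by
    have c1 : L * (7 * (21 * D * L / N)) ≤ L * (7 * (21 * D ^ 2 * (D * L))) := by gcongr
    have c2 : L * (7 * (21 * D ^ 2 * (D * L))) = 147 * D * (D * L) ^ 2 := by ring
    have c3 : (D * L) ^ 2 ≤ 1 := pow_le_one₀ hDL0 hE1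
    have c4 : D ≤ ρ / 2 ^ k := h1.trans (rho_bound hρ0 (by linarith) k)
    have c5 : 147 * (ρ / 2 ^ k) ≤ (μ / 8) / 2 ^ k := by
      rw [← mul_div_assoc]; gcongr; linarith
    nlinarith
  have b4 : L * (7 * (β⁻¹ ^ L / 20 + 21 * D * L / N)) ≤ μ / 4 * (1 / 2 ^ k) := by
    have := hL₀ L k h3
    have e : μ / 4 * (1 / 2 ^ k) = (μ / 8) / 2 ^ k + (μ / 8) / 2 ^ k := by ring
    rw [e]
    linarith
  obtain ⟨p', q', w', L', D', s1, s2, s3, s4⟩ := s.next hβ hα b1 (by nlinarith)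
  refine ⟨p', q', w', L', D', s1.weaken (by positivity) ?_ (by positivity) ?_, ?_, ?_, ?_⟩
  · have c1 : 0 ≤ 7 * (β⁻¹ ^ L / 20 + 21 * D * L / N) := by positivity
    have c2 : (1 : ℝ) / 2 ^ (k + 1) = 1 / 2 ^ k / 2 := by rw [pow_succ]; field_simp
    rw [c2]
    nlinarith
  · have c1 : Real.exp (-((1 - β⁻¹)⁻¹ + 480)) ≤
        Real.exp (-((1 - β⁻¹)⁻¹ + 240 * (N * D ^ 2))) := by
      rw [Real.exp_le_exp]; linarith
    have c2 : a ^ 2 ^ (k + 1) / κ = (a ^ 2 ^ k / κ) ^ 2 / 2 * Real.exp (-((1 - β⁻¹)⁻¹ + 480)) := by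
      have : Real.exp (-((1 - β⁻¹)⁻¹ + 480)) = 2 * κ := by rw [hκ]; ring
      rw [this, pow_succ 2 k, pow_mul]
      field_simp
    rw [c2]
    exact mul_le_mul_of_nonneg_left c1 (by positivity)
  · refine s2.trans (b2.trans ?_)
    have c1 : D ^ 2 ≤ (ρ ^ ((k + 8) * 2 ^ k)) ^ 2 := pow_le_pow_left₀ hD0.le h1 2
    have c2 : ρ ^ ((k + 1 + 8) * 2 ^ (k + 1)) * ρ ^ 2
        = (ρ ^ ((k + 8) * 2 ^ k)) ^ 2 * ρ ^ (2 ^ (k + 1) + 2) := by
      rw [← pow_mul, ← pow_add, ← pow_add]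
      congr 1
      ring
    have c3 : D ^ 2 * (D * L) ≤ ρ ^ ((k + 1 + 8) * 2 ^ (k + 1)) * ρ ^ 2 := by
      rw [c2]; gcongr
    have c4 : 0 ≤ ρ ^ ((k + 1 + 8) * 2 ^ (k + 1)) := by positivity
    have c5 : 21 * ρ ^ 2 ≤ 1 := by nlinarith
    nlinarith
  · refine s3.trans ?_
    have c1 : ρ ^ ((k + 8) * 2 ^ k) ≤ ρ ^ (2 ^ (k + 1 + 1) + 2 + 2) := by
      refine pow_le_pow_of_le_one hρ0.le (by linarith) ?_
      have : 1 ≤ 2 ^ k := Nat.one_le_two_pow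
      rw [pow_succ, pow_succ]
      nlinarith
    rw [pow_add _ _ 2] at c1
    have c4 : 0 ≤ ρ ^ (2 ^ (k + 1 + 1) + 2) := by positivity
    have c5 : 105 * ρ ^ 2 ≤ 1 := by nlinarith
    nlinarith
  · rw [pow_succ]
    nlinarith

/-- The output of the iteration. -/
theorem St.exists_good (hβ : 1 < β) (hα : ‖α‖ = 1) (h : St β α p q w L D m A) {η : ℝ}
    (hη : 0 < η) :
    ∃ (p q : ℝ) (w : ℂ) (L : ℕ) (D m A : ℝ), St β α p q w L D m A ∧ 0 < A ∧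
      L * (7 * (β⁻¹ ^ L / 20 + D)) ≤ m ∧ D * L ≤ 1 ∧ D ^ 2 * L ≤ η * A ^ 2 := by
  have hm0 := h.hm0
  have hm := h.hm
  set μ := m / 4 with hμ
  have hμ0 : 0 < μ := by positivity
  set ρ := μ / 1176 with hρ
  have hρ0 : 0 < ρ := by positivity
  have hρ1 : ρ ≤ 1 / 2 := by rw [hρ, hμ]; linarith
  obtain ⟨L₀, hL₀⟩ := window_tail hβ (τ := μ / 8) (by positivity)
  have hL₀' : ∀ L : ℕ, L₀ ≤ L → L * (7 * (β⁻¹ ^ L / 20)) ≤ μ / 8 := by
    intro L hL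
    simpa using hL₀ L 0 (by simpa using hL)
  have s0 := h.extend hβ hα (L' := L + L₀) (by omega)
  obtain ⟨p1, q1, w1, L1, D1, s1, a1, -, a3⟩ := s0.free_step hβ hα (τ := μ / 8)
    (δ := ρ ^ 4 / 105) (by positivity) (by positivity) (hL₀' _ (by omega)) (by linarith)
  obtain ⟨p2, q2, w2, L2, D2, s2, b1, b2, b3⟩ := s1.free_step hβ hα (τ := μ / 8)
    (δ := ρ ^ 8) (by positivity) (by positivity) (hL₀' _ (by omega)) (by linarith)
  set κ := Real.exp (-((1 - β⁻¹)⁻¹ + 480)) / 2 with hκ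
  have hκ0 : 0 < κ := by positivity
  have hκ1 : κ ≤ 1 := by
    have h1 : 0 < (1 - β⁻¹)⁻¹ := inv_pos.2 (by linarith [inv_lt_one' hβ])
    have : Real.exp (-((1 - β⁻¹)⁻¹ + 480)) ≤ 1 := Real.exp_le_one_iff.2 (by linarith)
    linarith
  have s3 := (s2.weaken (m' := μ * 2) (by positivity) (by linarith) le_rfl le_rfl).upgrade
  set a := κ * (μ * 2) ^ L2 with ha
  have ha0 : 0 < a := by positivity
  have base : Inv β α μ ρ a κ L₀ 0 := by
    refine ⟨p2, q2, w2, L2, D2, ?_, by simpa using b1, ?_, by simp; omega⟩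
    · have e1 : μ * (1 + 1 / 2 ^ 0) = μ * 2 := by norm_num
      have e2 : a ^ 2 ^ 0 / κ = (μ * 2) ^ L2 := by rw [pow_zero, pow_one, ha]; field_simp
      rw [e1, e2]; exact s3
    · have : 2 ^ (0 + 1) + 2 = 4 := by norm_num
      rw [this]; linarith
  have all : ∀ k, Inv β α μ ρ a κ L₀ k := by
    intro k
    induction k with
    | zero => exact base
    | succ k ih => exact ih.succ hβ hα hμ0 hρ0 (by rw [hρ]; linarith) ha0.le hL₀
  -- choose `k` with `ρ ^ k ≤ a ^ 2 * min 1 η`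
  obtain ⟨k, hk⟩ := exists_pow_lt_of_lt_one (x := a ^ 2 * min 1 η) (y := ρ)
    (by positivity) (by linarith)
  obtain ⟨p', q', w', L', D', s, c1, c2, c3⟩ := all k
  have hD'0 := s.hD0
  have h2k : (0 : ℝ) < 1 / 2 ^ k := by positivity
  have hE : D' * L' ≤ ρ := c2.trans (by
    calc ρ ^ (2 ^ (k + 1) + 2) ≤ ρ ^ 1 := pow_le_pow_of_le_one hρ0.le (by linarith) (Nat.le_add_left_of_le (by norm_num))
      _ = ρ := pow_one ρ)
  refine ⟨p', q', w', L', D', _, _, s, by positivity, ?_, by linarith, ?_⟩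
  · have d1 := hL₀' L' (le_trans (Nat.le_mul_of_pos_right _ (by positivity)) c3)
    have : ρ ≤ μ / 16 := by rw [hρ]; linarith
    nlinarith
  · have d1 : D' ^ 2 * L' ≤ D' := by nlinarith
    have hmin : 0 < min 1 η := by positivity
    have d2 : ρ ^ ((k + 8) * 2 ^ k) ≤ (a ^ 2 * min 1 η) ^ 2 ^ k := by
      rw [pow_mul]
      refine pow_le_pow_left₀ (by positivity) ?_ _
      exact (pow_le_pow_of_le_one hρ0.le (by linarith) (by omega)).trans hk.le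
    have d3 : (min 1 η) ^ 2 ^ k ≤ η := by
      calc (min 1 η) ^ 2 ^ k ≤ (min 1 η) ^ 1 :=
            pow_le_pow_of_le_one hmin.le (min_le_left _ _) Nat.one_le_two_pow
        _ ≤ η := by rw [pow_one]; exact min_le_right _ _
    have d4 : (a ^ 2) ^ 2 ^ k ≤ (a ^ 2 ^ k / κ) ^ 2 := by
      rw [← pow_mul, mul_comm, pow_mul]
      refine pow_le_pow_left₀ (by positivity) ?_ 2
      rw [le_div_iff₀ hκ0]
      exact mul_le_of_le_one_right (by positivity) hκ1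
    calc D' ^ 2 * L' ≤ (a ^ 2 * min 1 η) ^ 2 ^ k := d1.trans (c1.trans d2)
      _ = (min 1 η) ^ 2 ^ k * (a ^ 2) ^ 2 ^ k := by rw [mul_pow, mul_comm]
      _ ≤ η * (a ^ 2 ^ k / κ) ^ 2 := by gcongr

end

end Crest.Agent.R104
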