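import Mathlib
import Crest.Prelude.Def_BernoulliConv
import Crest.Agent.R104.Iter

/-!
The conjugate on the unit circle of a quartic Salem number, and the initial frequency.
-/

set_option autoImplicit false
open Finset Real Polynomial Crest.AnalysisR

namespace Crest.Agent.R104

lemma indep_of_deg {β : ℝ} (hdeg : (minpoly ℚ β).natDegree = 4) (c0 c1 c2 c3 : ℚ)
    (h : (c0 : ℝ) + c1 * β + c2 * β ^ 2 + c3 * β ^ 3 = 0) :
    c0 = 0 ∧ c1 = 0 ∧ c2 = 0 ∧ c3 = 0 := by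
  have li := linearIndependent_pow (K := ℚ) β
  rw [hdeg] at li
  have := Fintype.linearIndependent_iff.1 li ![c0, c1, c2, c3] (by
    simp [Fin.sum_univ_four, Rat.smul_def]
    linarith)
  exact ⟨this 0, this 1, this 2, this 3⟩

lemma power_sums {β t' : ℝ} {r : ℂ} {a c : ℤ} (hβ : β ≠ 0) (hr : ‖r‖ = 1)
    (hr2 : r ^ 2 - t' * r + 1 = 0) (ht : β + β⁻¹ + t' = a) (hc : (β + β⁻¹) * t' = c) (k : ℤ) :
    ∃ j : ℤ, β ^ k + (β ^ (-k) + 2 * (r ^ k).re) = j := by
  set t := β + β⁻¹ with htdef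
  have hr0 : r ≠ 0 := by rintro rfl; simp at hr
  have hre : 2 * r.re = t' := by
    have h1 : r * (starRingEnd ℂ) r = 1 := by
      rw [Complex.mul_conj, Complex.normSq_eq_norm_sq, hr]; simp
    have h2 : r + (starRingEnd ℂ) r = t' := by
      have : r * (r + (starRingEnd ℂ) r) = r * t' := by linear_combination hr2 + h1
      exact mul_left_cancel₀ hr0 this
    rw [Complex.add_conj] at h2
    exact_mod_cast h2
  have key : ∀ n : ℕ, ∃ A B : ℤ, β ^ n + β⁻¹ ^ n = A + B * t ∧ 2 * (r ^ n).re = A + B * t' := by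
    intro n
    induction n using Nat.twoStepInduction with
    | zero => exact ⟨2, 0, by norm_num, by norm_num⟩
    | one => exact ⟨0, 1, by simp [htdef], by simp [hre]⟩
    | more n ih0 ih1 =>
      obtain ⟨A0, B0, u0, v0⟩ := ih0
      obtain ⟨A1, B1, u1, v1⟩ := ih1
      refine ⟨-(B1 * c) - A0, A1 + B1 * a - B0, ?_, ?_⟩
      · have e : β ^ (n + 2) + β⁻¹ ^ (n + 2) = t * (β ^ (n + 1) + β⁻¹ ^ (n + 1))
            - (β ^ n + β⁻¹ ^ n) := by
          have h1 : β * β⁻¹ = 1 := mul_inv_cancel₀ hβ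
          rw [htdef]
          linear_combination (-(β ^ n) - β⁻¹ ^ n) * h1
        rw [e, u0, u1]
        push_cast
        rw [← ht, ← hc]
        ring
      · have e : r ^ (n + 2) = t' * r ^ (n + 1) - r ^ n := by
          linear_combination (r ^ n) * hr2
        rw [e, Complex.sub_re, Complex.re_ofReal_mul]
        push_cast
        rw [← ht, ← hc]
        linear_combination t' * v1 - v0
  have key2 : ∀ n : ℕ, ∃ j : ℤ, β ^ n + β⁻¹ ^ n + 2 * (r ^ n).re = j := by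
    intro n
    obtain ⟨A, B, u, v⟩ := key n
    refine ⟨2 * A + B * a, ?_⟩
    rw [u, v]
    push_cast
    rw [← ht]
    ring
  obtain ⟨n, rfl | rfl⟩ := Int.eq_nat_or_neg k
  · obtain ⟨j, hj⟩ := key2 n
    refine ⟨j, ?_⟩
    rw [← hj, zpow_neg, zpow_natCast, zpow_natCast, inv_pow]
    ring
  · obtain ⟨j, hj⟩ := key2 n
    refine ⟨j, ?_⟩
    have h1 : ‖r ^ n‖ = 1 := by rw [norm_pow, hr, one_pow]
    rw [← hj, neg_neg, zpow_neg, zpow_neg, zpow_natCast, zpow_natCast, inv_pow,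
      Complex.inv_re, Complex.normSq_eq_norm_sq, h1]
    ring

theorem salem_data {β : ℝ} (h : IsQuarticSalem β) :
    ∃ α : ℂ, ‖α‖ = 1 ∧ (∀ k : ℤ, ∃ j : ℤ, β ^ k + (β ^ (-k) + 2 * (α ^ k).re) = j) ∧
      IsIntegral ℤ β⁻¹ := by
  obtain ⟨hβ, hint, hdeg, hinv, hroots⟩ := h
  have hβ0 : β ≠ 0 := by positivity
  set P := minpoly ℤ β with hP
  have hmap : minpoly ℚ β = P.map (algebraMap ℤ ℚ) :=
    minpoly.isIntegrallyClosed_eq_field_fractions' ℚ hint
  have hmonic : P.Monic := minpoly.monic hint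
  have hPdeg : P.natDegree = 4 := by
    rw [← hdeg, hmap, hmonic.natDegree_map]
  have hc4 : P.coeff 4 = 1 := by rw [← hPdeg]; exact hmonic.coeff_natDegree
  have evR : ∀ x : ℝ, aeval x (minpoly ℚ β) =
      x ^ 4 + P.coeff 3 * x ^ 3 + P.coeff 2 * x ^ 2 + P.coeff 1 * x + P.coeff 0 := by
    intro x
    rw [hmap, aeval_map_algebraMap, aeval_eq_sum_range, hPdeg]
    simp [sum_range_succ, hc4]
    ring
  have evC : ∀ x : ℂ, aeval x (minpoly ℚ β) =
      x ^ 4 + P.coeff 3 * x ^ 3 + P.coeff 2 * x ^ 2 + P.coeff 1 * x + P.coeff 0 := by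
    intro x
    rw [hmap, aeval_map_algebraMap, aeval_eq_sum_range, hPdeg]
    simp [sum_range_succ, hc4]
    ring
  have hintinv : IsIntegral ℤ β⁻¹ := by
    refine ⟨P, hmonic, ?_⟩
    rw [hmap, aeval_map_algebraMap] at hinv
    exact hinv
  have e1 := evR β
  rw [minpoly.aeval] at e1
  rw [evR] at hinv
  set a0 := P.coeff 0
  set a1 := P.coeff 1
  set a2 := P.coeff 2
  set a3 := P.coeff 3
  have hbi : β * β⁻¹ = 1 := mul_inv_cancel₀ hβ0
  have e2 : 1 + a3 * β + a2 * β ^ 2 + a1 * β ^ 3 + a0 * β ^ 4 = 0 := by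
    have : 1 + a3 * β + a2 * β ^ 2 + a1 * β ^ 3 + a0 * β ^ 4
        = β ^ 4 * (β⁻¹ ^ 4 + a3 * β⁻¹ ^ 3 + a2 * β⁻¹ ^ 2 + a1 * β⁻¹ + a0) := by
      field_simp
    rw [this, hinv, mul_zero]
  obtain ⟨r0, r1, r2, r3⟩ := indep_of_deg hdeg ((1 - a0 ^ 2 : ℤ) : ℚ) ((a3 - a0 * a1 : ℤ) : ℚ)
    ((a2 - a0 * a2 : ℤ) : ℚ) ((a1 - a0 * a3 : ℤ) : ℚ) (by
      push_cast
      linear_combination e2 + a0 * e1)
  have r0' : 1 - a0 ^ 2 = 0 := by exact_mod_cast r0
  have r1' : a3 - a0 * a1 = 0 := by exact_mod_cast r1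
  have r2' : a2 - a0 * a2 = 0 := by exact_mod_cast r2
  have r3' : a1 - a0 * a3 = 0 := by exact_mod_cast r3
  have ha0 : a0 = 1 := by
    have : (a0 - 1) * (a0 + 1) = 0 := by linear_combination -r0'
    rcases mul_eq_zero.1 this with h | h
    · linarith
    · exfalso
      have h0 : a0 = -1 := by linarith
      have h2 : a2 = 0 := by rw [h0] at r2'; linarith
      have h1 : a1 = -a3 := by rw [h0] at r3'; linarith
      rw [h0, h1, h2] at e1
      push_cast at e1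
      have h4 : (β ^ 2 - 1) * (β ^ 2 + a3 * β + 1) = 0 := by linear_combination -e1
      have h5 : β ^ 2 - 1 ≠ 0 := by nlinarith
      have h6 := (mul_eq_zero.1 h4).resolve_left h5
      have := (indep_of_deg hdeg 1 (a3 : ℚ) 1 0 (by push_cast; linear_combination h6)).1
      norm_num at this
  have ha1 : a1 = a3 := by rw [ha0] at r3'; linarith
  rw [ha0, ha1] at e1
  simp only [ha0, ha1] at evC
  push_cast at e1 evC
  set t' : ℝ := -a3 - (β + β⁻¹) with ht'
  have htt : (β + β⁻¹) * t' = ((a2 - 2 : ℤ) : ℝ) := by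
    push_cast
    rw [ht']
    field_simp
    linear_combination e1
  obtain ⟨s, hs⟩ := IsAlgClosed.exists_pow_nat_eq ((t' : ℂ) ^ 2 - 4) (by norm_num : 0 < 2)
  set r : ℂ := (t' + s) / 2 with hr
  have hr2 : r ^ 2 - t' * r + 1 = 0 := by
    rw [hr]; linear_combination (1 / 4 : ℂ) * hs
  have hnot : β ^ 2 - t' * β + 1 ≠ 0 := by
    intro h
    have h' : (2 : ℝ) + a3 * β + 2 * β ^ 2 = 0 := by
      rw [ht'] at h
      linear_combination h - hbi
    have := (indep_of_deg hdeg 2 (a3 : ℚ) 2 0 (by push_cast; linear_combination h')).1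
    norm_num at this
  have hroot : aeval r (minpoly ℚ β) = 0 := by
    rw [evC]
    have h1 : ((β + β⁻¹ : ℝ) : ℂ) * t' = a2 - 2 := by exact_mod_cast htt
    have h2 : ((β + β⁻¹ : ℝ) : ℂ) + t' = -a3 := by
      have : (β + β⁻¹) + t' = -a3 := by rw [ht']; ring
      exact_mod_cast this
    set t : ℂ := ((β + β⁻¹ : ℝ) : ℂ)
    linear_combination (r ^ 2 - t * r + 1) * hr2 + (r ^ 3 + r) * h2 - r ^ 2 * h1
  have hnorm : ‖r‖ = 1 := by
    rcases hroots r hroot with h | h | h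
    · exfalso
      rw [h] at hr2
      exact hnot (by exact_mod_cast hr2)
    · exfalso
      rw [h] at hr2
      have h3 : β⁻¹ ^ 2 - t' * β⁻¹ + 1 = 0 := by exact_mod_cast hr2
      apply hnot
      have : β ^ 2 - t' * β + 1 = β ^ 2 * (β⁻¹ ^ 2 - t' * β⁻¹ + 1) := by field_simp; ring
      rw [this, h3, mul_zero]
    · exact h
  exact ⟨r, hnorm, power_sums (a := -a3) (c := a2 - 2) hβ0 hnorm hr2
    (by rw [ht']; push_cast; ring) htt, hintinv⟩

lemma cs_ne_zero {x : ℝ} (hx : IsIntegral ℤ x) : cs x ≠ 0 := by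
  intro h
  obtain ⟨k, hk⟩ := Real.cos_eq_zero_iff.1 h
  have hpi := Real.pi_pos
  have h1 : x = algebraMap ℚ ℝ ((2 * k + 1 : ℚ) / 4) := by
    have : π * (4 * x) = π * (2 * k + 1) := by linarith
    have h2 := mul_left_cancel₀ hpi.ne' this
    simp only [eq_ratCast]
    push_cast
    linarith
  rw [h1, isIntegral_algebraMap_iff (algebraMap ℚ ℝ).injective] at hx
  obtain ⟨y, hy⟩ := IsIntegrallyClosed.isIntegral_iff.1 hx
  simp only [eq_intCast] at hy
  have h3 : (4 * y : ℚ) = 2 * k + 1 := by rw [hy]; ring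
  have h4 : 4 * y = 2 * k + 1 := by exact_mod_cast h3
  omega

lemma exists_min_pos (f : ℕ → ℝ) (hf : ∀ i, 0 < f i) (L : ℕ) :
    ∃ m : ℝ, 0 < m ∧ m ≤ 1 / 2 ∧ ∀ i < L, m ≤ f i := by
  induction L with
  | zero => exact ⟨1 / 2, by norm_num, le_rfl, fun i hi => absurd hi (Nat.not_lt_zero i)⟩
  | succ L ih =>
    obtain ⟨m, h0, h1, h2⟩ := ih
    refine ⟨min m (f L), lt_min h0 (hf L), (min_le_left _ _).trans h1, fun i hi => ?_⟩
    rcases Nat.lt_succ_iff_lt_or_eq.1 hi with h | rfl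
    · exact (min_le_left _ _).trans (h2 i h)
    · exact min_le_right _ _

theorem exists_initial {β : ℝ} (h : IsQuarticSalem β) :
    ∃ (α : ℂ) (p q : ℝ) (w : ℂ) (L : ℕ) (D m A : ℝ), ‖α‖ = 1 ∧ St β α p q w L D m A := by
  obtain ⟨α, hα, hsum, hinv⟩ := salem_data h
  obtain ⟨hβ, hint, -⟩ := h
  have hβ0 : β ≠ 0 := by positivity
  have hα0 : α ≠ 0 := by rintro rfl; simp at hα
  obtain ⟨n, hn0, -, hn⟩ := dirichlet_circle hα (N := 280) (by norm_num)
  obtain ⟨s, hs⟩ := pow_unbounded_of_one_lt (20 * β ^ n) hβ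
  have hbn : 1 < β ^ n := one_lt_pow₀ hβ hn0.ne'
  have hbs : 0 < β ^ s := by positivity
  set p : ℝ := (β ^ n - 1) * β⁻¹ ^ s with hp
  set q : ℝ := (β⁻¹ ^ n - 1) * β ^ s with hq
  set w : ℂ := (α ^ n - 1) * α⁻¹ ^ s with hw
  have hp0 : 0 < p := by
    have : 0 < β ^ n - 1 := by linarith
    positivity
  obtain ⟨L, hL⟩ := pow_unbounded_of_one_lt (20 * |q| + 1 / p) hβ
  have hpint : IsIntegral ℤ p := ((hint.pow n).sub isIntegral_one).mul (hinv.pow s)
  have hqint : IsIntegral ℤ q := ((hinv.pow n).sub isIntegral_one).mul (hint.pow s)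
  obtain ⟨m, hm0, hm1, hm2⟩ := exists_min_pos
    (fun i => min |cs (p * β ^ i)| |cs (q * β⁻¹ ^ i)|)
    (fun i => lt_min (abs_pos.2 (cs_ne_zero (hpint.mul (hint.pow i))))
      (abs_pos.2 (cs_ne_zero (hqint.mul (hinv.pow i))))) L
  have h1p : 0 < 1 / p := by positivity
  refine ⟨α, p, q, w, L, 1 / 20, m, 0, hα, fun k => ?_, ?_, by linarith, ?_, ?_, by norm_num,
    le_rfl, hm0, hm1, fun i hi => (hm2 i hi).trans (min_le_left _ _),
    fun i hi => (hm2 i hi).trans (min_le_right _ _), le_rfl,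
    prod_nonneg (fun i _ => abs_nonneg _), prod_nonneg (fun i _ => abs_nonneg _)⟩
  · obtain ⟨j1, h1⟩ := hsum (n + (k - s))
    obtain ⟨j2, h2⟩ := hsum (k - s)
    refine ⟨j1 - j2, ?_⟩
    have e1 : p * β ^ k = β ^ (n + (k - s)) - β ^ (k - s) := by
      rw [hp, zpow_add₀ hβ0, zpow_sub₀ hβ0, zpow_natCast, zpow_natCast, inv_pow]; field_simp
    have e2 : q * β ^ (-k) = β ^ (-(n + (k - s))) - β ^ (-(k - s)) := by
      rw [hq, zpow_neg, zpow_neg, zpow_neg, zpow_add₀ hβ0, zpow_sub₀ hβ0, zpow_natCast,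
        zpow_natCast, inv_pow]
      have : β ^ k ≠ 0 := zpow_ne_zero _ hβ0
      field_simp
    have e3 : w * α ^ k = α ^ (n + (k - s)) - α ^ (k - s) := by
      rw [hw, zpow_add₀ hα0, zpow_sub₀ hα0, zpow_natCast, zpow_natCast, inv_pow]; field_simp
    rw [e1, e2, e3, Complex.sub_re]
    push_cast
    linarith
  · rw [abs_of_pos hp0, hp, inv_pow, ← div_eq_mul_inv, div_le_iff₀ hbs]
    linarith
  · rw [abs_of_pos hp0]
    have : 1 / p ≤ β ^ L := by linarith [abs_nonneg q]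
    rw [div_le_iff₀ hp0] at this
    linarith
  · rw [hw, norm_mul, norm_pow, norm_inv, hα, norm_sub_rev]
    norm_num at hn ⊢
    linarith

end Crest.Agent.R104
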