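import Mathlib
import Crest.Prelude.Def_BernoulliConv

/-!
Self-similarity of the Bernoulli convolution and of the absolutely continuous part of its
Lebesgue decomposition, read on characteristic functions.
-/

set_option autoImplicit false
open MeasureTheory ProbabilityTheory Filter Topology Crest.AnalysisR
open scoped ENNReal

namespace Crest.Agent.R104

instance fairCoin_prob : IsProbabilityMeasure fairCoin := by
  constructor
  simp [fairCoin, ENNReal.inv_two_add_inv_two]

lemma summable_sps {c : ℝ} (h0 : 0 ≤ c) (h1 : c < 1) (ε : ℕ → Bool) :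
    Summable (fun n => if ε n then c ^ n else -(c ^ n)) := by
  refine Summable.of_norm_bounded (summable_geometric_of_lt_one h0 h1) (fun n => ?_)
  by_cases h : ε n <;> simp [h, abs_of_nonneg h0]

lemma tendsto_sps {c : ℝ} (h0 : 0 ≤ c) (h1 : c < 1) (ε : ℕ → Bool) :
    Tendsto (fun N => ∑ n ∈ Finset.range N, (if ε n then c ^ n else -(c ^ n))) atTop
      (𝓝 (signedPowerSum c ε)) :=
  (summable_sps h0 h1 ε).hasSum.tendsto_sum_nat

lemma measurable_term (c : ℝ) (n : ℕ) :
    Measurable (fun ε : ℕ → Bool => if ε n then c ^ n else -(c ^ n)) :=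
  (measurable_from_top (f := fun b : Bool => if b then c ^ n else -(c ^ n))).comp
    (measurable_pi_apply n)

lemma measurable_partial (c : ℝ) (N : ℕ) :
    Measurable (fun ε : ℕ → Bool => ∑ n ∈ Finset.range N, (if ε n then c ^ n else -(c ^ n))) :=
  Finset.measurable_sum _ (fun n _ => measurable_term c n)

lemma measurable_sps {c : ℝ} (h0 : 0 ≤ c) (h1 : c < 1) : Measurable (signedPowerSum c) :=
  measurable_of_tendsto_metrizable (fun N => measurable_partial c N)
    (tendsto_pi_nhds.2 (fun ε => tendsto_sps h0 h1 ε))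

lemma bc_prob {c : ℝ} (h0 : 0 ≤ c) (h1 : c < 1) :
    IsProbabilityMeasure (bernoulliConvolution c) :=
  Measure.isProbabilityMeasure_map (measurable_sps h0 h1).aemeasurable

lemma charFun_term (c : ℝ) (n : ℕ) (t : ℝ) :
    charFun ((Measure.infinitePi (fun _ : ℕ => fairCoin)).map
      (fun ε : ℕ → Bool => if ε n then c ^ n else -(c ^ n))) t = (Real.cos (t * c ^ n) : ℝ) := by
  have h : (Measure.infinitePi (fun _ : ℕ => fairCoin)).map
      (fun ε : ℕ → Bool => if ε n then c ^ n else -(c ^ n))
      = fairCoin.map (fun b : Bool => if b then c ^ n else -(c ^ n)) := by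
    conv_rhs => rw [← Measure.infinitePi_map_eval (fun _ : ℕ => fairCoin) n,
      Measure.map_map measurable_from_top (measurable_pi_apply n)]
    rfl
  rw [h, charFun_apply_real, integral_map measurable_from_top.aemeasurable (by fun_prop)]
  unfold fairCoin
  rw [integral_add_measure, integral_smul_measure, integral_smul_measure, integral_dirac,
    integral_dirac]
  · simp only [if_true, Bool.false_eq_true, if_false, Complex.ofReal_cos]
    rw [Complex.cos]
    simp only [ENNReal.toReal_inv, ENNReal.toReal_ofNat, Complex.real_smul]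
    push_cast
    ring_nf
  · exact Integrable.smul_measure (integrable_dirac (by simp)) (by simp)
  · exact Integrable.smul_measure (integrable_dirac (by simp)) (by simp)

lemma charFun_partial (c : ℝ) (N : ℕ) (t : ℝ) :
    charFun ((Measure.infinitePi (fun _ : ℕ => fairCoin)).map
      (fun ε : ℕ → Bool => ∑ n ∈ Finset.range N, (if ε n then c ^ n else -(c ^ n)))) t
      = ∏ n ∈ Finset.range N, ((Real.cos (t * c ^ n) : ℝ) : ℂ) := by
  have hind : iIndepFun (fun (n : ℕ) (ε : ℕ → Bool) => if ε n then c ^ n else -(c ^ n))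
      (Measure.infinitePi (fun _ : ℕ => fairCoin)) :=
    iIndepFun_infinitePi (X := fun (n : ℕ) (b : Bool) => if b then c ^ n else -(c ^ n))
      (fun _ => measurable_from_top)
  have := (hind.restrict (Finset.range N)).charFun_map_fun_finsetSum_eq_prod
    (fun n _ => (measurable_term c n).aemeasurable)
  rw [this, Finset.prod_apply]
  exact Finset.prod_congr rfl (fun n _ => charFun_term c n t)

lemma tendsto_charFun_bc {c : ℝ} (h0 : 0 ≤ c) (h1 : c < 1) (t : ℝ) :
    Tendsto (fun N => ∏ n ∈ Finset.range N, ((Real.cos (t * c ^ n) : ℝ) : ℂ)) atTop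
      (𝓝 (charFun (bernoulliConvolution c) t)) := by
  simp_rw [← charFun_partial]
  unfold bernoulliConvolution
  rw [charFun_apply_real, integral_map (measurable_sps h0 h1).aemeasurable (by fun_prop)]
  have : ∀ N, charFun ((Measure.infinitePi (fun _ : ℕ => fairCoin)).map
      (fun ε : ℕ → Bool => ∑ n ∈ Finset.range N, (if ε n then c ^ n else -(c ^ n)))) t
      = ∫ ε, Complex.exp (t * ((∑ n ∈ Finset.range N, (if ε n then c ^ n else -(c ^ n)) : ℝ) : ℂ)
        * Complex.I) ∂(Measure.infinitePi (fun _ : ℕ => fairCoin)) := by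
    intro N
    rw [charFun_apply_real, integral_map (measurable_partial c N).aemeasurable (by fun_prop)]
  simp_rw [this]
  refine tendsto_integral_of_dominated_convergence (fun _ => 1) (fun N => ?_) (integrable_const _)
    (fun N => ae_of_all _ (fun ε => ?_)) (ae_of_all _ (fun ε => ?_))
  · have := measurable_partial c N
    refine Measurable.aestronglyMeasurable ?_
    fun_prop
  · rw [← Complex.ofReal_mul, Complex.norm_exp_ofReal_mul_I]
  · have := tendsto_sps h0 h1 ε
    have hc : Continuous (fun x : ℝ => Complex.exp (t * (x : ℂ) * Complex.I)) := by fun_prop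
    exact (hc.tendsto _).comp this

lemma charFun_bc_rec {c : ℝ} (h0 : 0 ≤ c) (h1 : c < 1) (t : ℝ) :
    charFun (bernoulliConvolution c) t
      = (Real.cos t : ℝ) * charFun (bernoulliConvolution c) (c * t) := by
  have h := tendsto_charFun_bc h0 h1 t
  have h' := (tendsto_charFun_bc h0 h1 (c * t)).const_mul ((Real.cos t : ℝ) : ℂ)
  refine tendsto_nhds_unique ((tendsto_add_atTop_iff_nat 1).2 h) ?_
  refine h'.congr (fun N => ?_)
  rw [Finset.prod_range_succ', mul_comm]
  simp only [pow_zero, mul_one]
  congr 1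
  refine Finset.prod_congr rfl (fun n _ => ?_)
  congr 2
  ring

/-- The averaging operator of the iterated function system `x ↦ c x ± 1`. -/
noncomputable def avg (c : ℝ) (μ : Measure ℝ) : Measure ℝ :=
  (2⁻¹ : ℝ≥0∞) • μ.map (fun x => c * x + 1) + (2⁻¹ : ℝ≥0∞) • μ.map (fun x => c * x + (-1))

instance avg_finite (c : ℝ) (μ : Measure ℝ) [IsFiniteMeasure μ] : IsFiniteMeasure (avg c μ) := by
  unfold avg
  have h : ∀ ρ : Measure ℝ, IsFiniteMeasure ρ → IsFiniteMeasure ((2⁻¹ : ℝ≥0∞) • ρ) :=
    fun ρ _ => Measure.smul_finite ρ (by simp)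
  have h1 := h (μ.map (fun x => c * x + 1)) inferInstance
  have h2 := h (μ.map (fun x => c * x + (-1))) inferInstance
  infer_instance

lemma charFun_affine (c b : ℝ) (μ : Measure ℝ) (t : ℝ) :
    charFun (μ.map (fun x => c * x + b)) t
      = charFun μ (c * t) * Complex.exp ((b * t : ℝ) * Complex.I) := by
  have : μ.map (fun x => c * x + b) = (μ.map (c * ·)).map (· + b) := by
    rw [Measure.map_map (by fun_prop) (by fun_prop)]; rfl
  rw [this, charFun_map_add_const, charFun_map_mul]
  simp [mul_comm]

lemma charFun_add' (μ ν : Measure ℝ) [IsFiniteMeasure μ] [IsFiniteMeasure ν] (t : ℝ) :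
    charFun (μ + ν) t = charFun μ t + charFun ν t := by
  have hint : ∀ (ρ : Measure ℝ) [IsFiniteMeasure ρ],
      Integrable (fun x : ℝ => Complex.exp (t * x * Complex.I)) ρ := by
    intro ρ _
    refine Integrable.of_bound (by fun_prop) 1 (ae_of_all _ (fun x => ?_))
    rw [← Complex.ofReal_mul, Complex.norm_exp_ofReal_mul_I]
  simp only [charFun_apply_real]
  rw [integral_add_measure (hint μ) (hint ν)]

lemma charFun_avg (c : ℝ) (μ : Measure ℝ) [IsFiniteMeasure μ] (t : ℝ) :
    charFun (avg c μ) t = (Real.cos t : ℝ) * charFun μ (c * t) := by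
  have h : ∀ ρ : Measure ℝ, IsFiniteMeasure ρ → IsFiniteMeasure ((2⁻¹ : ℝ≥0∞) • ρ) :=
    fun ρ _ => Measure.smul_finite ρ (by simp)
  have h1 := h (μ.map (fun x => c * x + 1)) inferInstance
  have h2 := h (μ.map (fun x => c * x + (-1))) inferInstance
  have hs : ∀ ρ : Measure ℝ, charFun ((2⁻¹ : ℝ≥0∞) • ρ) t = (2⁻¹ : ℂ) * charFun ρ t := by
    intro ρ
    simp only [charFun_apply_real, integral_smul_measure]
    simp
  unfold avg
  rw [charFun_add', hs, hs, charFun_affine, charFun_affine, Complex.ofReal_cos, Complex.cos]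
  push_cast
  ring_nf

lemma avg_add (c : ℝ) (μ ν : Measure ℝ) : avg c (μ + ν) = avg c μ + avg c ν := by
  unfold avg
  rw [Measure.map_add _ _ (by fun_prop), Measure.map_add _ _ (by fun_prop), smul_add, smul_add]
  abel

lemma volume_preimage_affine {c : ℝ} (hc : c ≠ 0) (b : ℝ) {s : Set ℝ} (hs : volume s = 0) :
    volume ((fun x => c * x + b) ⁻¹' s) = 0 := by
  have : (fun x => c * x + b) ⁻¹' s = (fun x => c * x) ⁻¹' ((fun x => x + b) ⁻¹' s) := rfl
  rw [this, Real.volume_preimage_mul_left hc, measure_preimage_add_right, hs, mul_zero]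

lemma map_affine_ac {c : ℝ} (hc : c ≠ 0) (b : ℝ) {μ : Measure ℝ} (h : μ ≪ volume) :
    μ.map (fun x => c * x + b) ≪ volume := by
  refine Measure.AbsolutelyContinuous.mk (fun s hs h0 => ?_)
  rw [Measure.map_apply (by fun_prop) hs]
  exact h (volume_preimage_affine hc b h0)

lemma map_affine_sing {c : ℝ} (hc : c ≠ 0) (b : ℝ) {μ : Measure ℝ} (h : μ ⟂ₘ volume) :
    μ.map (fun x => c * x + b) ⟂ₘ volume := by
  obtain ⟨s, hs, h1, h2⟩ := h
  refine ⟨(fun y => c⁻¹ * y + (-(c⁻¹ * b))) ⁻¹' s, by measurability, ?_, ?_⟩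
  · rw [Measure.map_apply (by fun_prop) (by measurability)]
    have : (fun x => c * x + b) ⁻¹' ((fun y => c⁻¹ * y + (-(c⁻¹ * b))) ⁻¹' s) = s := by
      ext x
      simp only [Set.mem_preimage]
      have : c⁻¹ * (c * x + b) + (-(c⁻¹ * b)) = x := by field_simp; ring
      rw [this]
    rw [this, h1]
  · rw [← Set.preimage_compl]
    exact volume_preimage_affine (inv_ne_zero hc) _ h2

lemma avg_ac {c : ℝ} (hc : c ≠ 0) {μ : Measure ℝ} (h : μ ≪ volume) : avg c μ ≪ volume := by
  unfold avg
  exact Measure.AbsolutelyContinuous.add_left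
    ((map_affine_ac hc _ h).smul_left _) ((map_affine_ac hc _ h).smul_left _)

lemma avg_sing {c : ℝ} (hc : c ≠ 0) {μ : Measure ℝ} (h : μ ⟂ₘ volume) : avg c μ ⟂ₘ volume := by
  unfold avg
  exact Measure.MutuallySingular.add_left
    ((map_affine_sing hc _ h).smul _) ((map_affine_sing hc _ h).smul _)

/-- If every finite absolutely continuous measure whose characteristic function satisfies the
functional equation vanishes, the Bernoulli convolution is singular. -/
theorem singular_of_no_ac {c : ℝ} (h0 : 0 < c) (h1 : c < 1)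
    (H : ∀ (μ : Measure ℝ) [IsFiniteMeasure μ], μ ≪ volume →
      (∀ t, charFun μ t = (Real.cos t : ℝ) * charFun μ (c * t)) → μ = 0) :
    bernoulliConvolution c ⟂ₘ volume := by
  have := bc_prob h0.le h1
  set ν := bernoulliConvolution c with hν
  have hself : avg c ν = ν := by
    refine Measure.ext_of_charFun (funext fun t => ?_)
    rw [charFun_avg, ← charFun_bc_rec h0.le h1]
  set s := ν.singularPart volume with hs
  set a := volume.withDensity (ν.rnDeriv volume) with ha
  have hdec : ν = s + a := Measure.haveLebesgueDecomposition_add ν volume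
  have hac : a ≪ volume := withDensity_absolutelyContinuous _ _
  have hsing : s ⟂ₘ volume := Measure.mutuallySingular_singularPart ν volume
  have hfa : IsFiniteMeasure a := by rw [ha]; infer_instance
  have h2 : ν = avg c s + volume.withDensity ((avg c a).rnDeriv volume) := by
    rw [Measure.withDensity_rnDeriv_eq _ _ (avg_ac h0.ne' hac), ← avg_add, ← hdec, hself]
  have h3 := Measure.eq_withDensity_rnDeriv (Measure.measurable_rnDeriv _ _)
    (avg_sing h0.ne' hsing) h2
  rw [Measure.withDensity_rnDeriv_eq _ _ (avg_ac h0.ne' hac), ← ha] at h3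
  have h4 : a = 0 := by
    refine H a hac (fun t => ?_)
    rw [← charFun_avg, h3]
  rw [hdec, h4, add_zero]
  exact hsing

end Crest.Agent.R104
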