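import Mathlib
import Crest.Agent.R104.Iter

/-!
The test functions: sums of cosines at the constructed frequencies separate a measure with the
self-similar characteristic function from the Gaussian measure.
-/

set_option autoImplicit false
open Finset Real MeasureTheory ProbabilityTheory Filter Topology

namespace Crest.Agent.R104

/-- The cosine transform. -/
noncomputable def G (μ : Measure ℝ) (v : ℝ) : ℝ := ∫ x, cs (v * x) ∂μ

lemma continuous_cs : Continuous cs := by unfold cs; fun_prop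

lemma integrable_cs (μ : Measure ℝ) [IsFiniteMeasure μ] (v : ℝ) :
    Integrable (fun x => cs (v * x)) μ :=
  Integrable.of_bound (continuous_cs.comp (by fun_prop)).aestronglyMeasurable 1
    (ae_of_all _ (fun x => abs_cs_le _))

lemma G_eq (μ : Measure ℝ) [IsFiniteMeasure μ] (v : ℝ) : G μ v = (charFun μ (2 * π * v)).re := by
  have hint : Integrable (fun x : ℝ => Complex.exp ((2 * π * v : ℝ) * x * Complex.I)) μ := by
    refine Integrable.of_bound (by fun_prop) 1 (ae_of_all _ (fun x => ?_))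
    rw [← Complex.ofReal_mul, Complex.norm_exp_ofReal_mul_I]
  rw [charFun_apply_real, ← Complex.reCLM_apply, ← Complex.reCLM.integral_comp_comm hint]
  unfold G cs
  refine integral_congr_ae (ae_of_all _ (fun x => ?_))
  simp only [Complex.reCLM_apply]
  rw [← Complex.ofReal_mul, Complex.exp_ofReal_mul_I_re, mul_assoc (2 * π)]

lemma abs_G_le (μ : Measure ℝ) [IsFiniteMeasure μ] (v : ℝ) : |G μ v| ≤ μ.real Set.univ := by
  rw [G_eq]
  exact (Complex.abs_re_le_norm _).trans (norm_charFun_le _)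

lemma G_neg (μ : Measure ℝ) (v : ℝ) : G μ (-v) = G μ v := by
  unfold G
  simp_rw [neg_mul, cs_neg]

lemma G_zero (μ : Measure ℝ) : G μ 0 = μ.real Set.univ := by
  unfold G cs
  simp

lemma continuous_G (μ : Measure ℝ) [IsFiniteMeasure μ] : Continuous (G μ) := by
  have : G μ = fun v => (charFun μ (2 * π * v)).re := funext (G_eq μ)
  rw [this]
  exact Complex.continuous_re.comp (continuous_charFun.comp (by fun_prop))

lemma G_rec {μ : Measure ℝ} [IsFiniteMeasure μ] {c : ℝ}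
    (h : ∀ t, charFun μ t = (Real.cos t : ℝ) * charFun μ (c * t)) (v : ℝ) :
    G μ v = cs v * G μ (v * c) := by
  rw [G_eq, G_eq, h, Complex.re_ofReal_mul]
  unfold cs
  congr 3
  ring

lemma G_gauss (v : ℝ) : G (gaussianReal 0 1) v = Real.exp (-((2 * π * v) ^ 2 / 2)) := by
  rw [G_eq, charFun_gaussianReal]
  have : ((2 * π * v : ℝ) : ℂ) * (0 : ℝ) * Complex.I - ((1 : NNReal) : ℝ) * (2 * π * v : ℝ) ^ 2 / 2
      = ((-((2 * π * v) ^ 2 / 2) : ℝ) : ℂ) := by
    push_cast; ring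
  rw [this, Complex.exp_ofReal_re]

lemma cs_mul (a b : ℝ) : cs a * cs b = (cs (a - b) + cs (a + b)) / 2 := by
  unfold cs
  rw [mul_sub, mul_add, Real.cos_sub, Real.cos_add]
  ring

lemma integral_sq_le (μ : Measure ℝ) [IsFiniteMeasure μ] (v e : ℕ → ℝ) (J : ℕ) {B : ℝ}
    (hB : 0 ≤ B) (he : ∀ i, 0 ≤ e i)
    (h : ∀ i j, i < j → j < J → G μ (v j - v i) ≤ B * (e i * e j) ∧
      G μ (v j + v i) ≤ B * (e i * e j)) :
    ∫ x, (∑ j ∈ range J, cs (v j * x)) ^ 2 ∂μ
      ≤ J * μ.real Set.univ + B * (∑ j ∈ range J, e j) ^ 2 := by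
  have h1 : ∀ x, (∑ j ∈ range J, cs (v j * x)) ^ 2 = ∑ i ∈ range J, ∑ j ∈ range J,
      (cs ((v i - v j) * x) + cs ((v i + v j) * x)) / 2 := by
    intro x
    rw [sq, sum_mul_sum]
    refine sum_congr rfl (fun i _ => sum_congr rfl (fun j _ => ?_))
    rw [cs_mul, sub_mul, add_mul]
  have hint : ∀ i j, Integrable (fun x => (cs ((v i - v j) * x) + cs ((v i + v j) * x)) / 2) μ :=
    fun i j => ((integrable_cs μ _).add (integrable_cs μ _)).div_const 2
  simp_rw [h1]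
  rw [integral_finsetSum _ (fun i _ => integrable_finsetSum _ (fun j _ => hint i j))]
  have h2 : ∀ i ∈ range J, ∫ x, ∑ j ∈ range J,
      (cs ((v i - v j) * x) + cs ((v i + v j) * x)) / 2 ∂μ
      ≤ μ.real Set.univ + ∑ j ∈ range J, B * (e i * e j) := by
    intro i hi
    rw [integral_finsetSum _ (fun j _ => hint i j)]
    have h3 : ∀ j ∈ range J, ∫ x, (cs ((v i - v j) * x) + cs ((v i + v j) * x)) / 2 ∂μ
        ≤ (if i = j then μ.real Set.univ else 0) + B * (e i * e j) := by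
      intro j hj
      rw [integral_div, integral_add (integrable_cs μ _) (integrable_cs μ _)]
      change (G μ (v i - v j) + G μ (v i + v j)) / 2 ≤ _
      have hn : 0 ≤ B * (e i * e j) := mul_nonneg hB (mul_nonneg (he i) (he j))
      rcases lt_trichotomy i j with c | c | c
      · obtain ⟨a, b⟩ := h i j c (mem_range.1 hj)
        rw [if_neg c.ne, ← G_neg μ (v i - v j), neg_sub, add_comm (v i)]
        linarith
      · rw [if_pos c]
        have a := (abs_le.1 (abs_G_le μ (v i - v j))).2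
        have b := (abs_le.1 (abs_G_le μ (v i + v j))).2
        linarith
      · obtain ⟨a, b⟩ := h j i c (mem_range.1 hi)
        rw [if_neg c.ne', mul_comm (e i)]
        linarith
    refine (sum_le_sum h3).trans (le_of_eq ?_)
    rw [sum_add_distrib, sum_ite_eq, if_pos hi]
  refine (sum_le_sum h2).trans (le_of_eq ?_)
  rw [sum_add_distrib, sum_const, card_range, nsmul_eq_mul, sq, sum_mul_sum, mul_sum]
  simp_rw [mul_sum]

section
variable {β : ℝ} {α : ℂ} {p q : ℝ} {w : ℂ} {L : ℕ} {D m A : ℝ}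
  {μ : Measure ℝ} [IsFiniteMeasure μ]

omit [IsFiniteMeasure μ] in
lemma G_up (hβ : 1 < β) (hrec : ∀ v, G μ v = cs v * G μ (v * β⁻¹)) (u : ℝ) (M : ℕ) :
    G μ (u * β ^ M * β⁻¹) = (∏ k ∈ range M, cs (u * β ^ k)) * G μ (u * β⁻¹) := by
  have hβ0 : β ≠ 0 := by positivity
  induction M with
  | zero => simp
  | succ M ih =>
    have : u * β ^ (M + 1) * β⁻¹ = u * β ^ M := by field_simp; ring
    rw [this, hrec, ih, prod_range_succ]
    ring

omit [IsFiniteMeasure μ] in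
lemma G_down (hrec : ∀ v, G μ v = cs v * G μ (v * β⁻¹)) (v : ℝ) (N : ℕ) :
    G μ v = (∏ k ∈ range N, cs (v * β⁻¹ ^ k)) * G μ (v * β⁻¹ ^ N) := by
  induction N with
  | zero => simp
  | succ N ih =>
    rw [ih, hrec (v * β⁻¹ ^ N), prod_range_succ, pow_succ]
    ring_nf

lemma G_small (hβ : 1 < β) (hrec : ∀ v, G μ v = cs v * G μ (v * β⁻¹))
    (ht : 0 < μ.real Set.univ) {v : ℝ} (hv : |v| ≤ 1 / 20) :
    Real.exp (-(1 - β⁻¹)⁻¹) * (μ.real Set.univ / 2) ≤ G μ v := by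
  have hl0 : 0 ≤ β⁻¹ := by positivity
  have hl1 := inv_lt_one' hβ
  have h1 : Tendsto (fun N : ℕ => G μ (v * β⁻¹ ^ N)) atTop (𝓝 (μ.real Set.univ)) := by
    rw [← G_zero]
    refine ((continuous_G μ).tendsto 0).comp ?_
    simpa using (tendsto_pow_atTop_nhds_zero_of_lt_one hl0 hl1).const_mul v
  obtain ⟨N, hN⟩ := (h1.eventually (lt_mem_nhds (half_lt_self ht))).exists
  rw [G_down hrec v N]
  have h2 := (gap_prod (D := 0) hl0 hl1 le_rfl (by norm_num) N (fun k => v * β⁻¹ ^ k)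
    (fun i _ => by
      have a : 0 ≤ β⁻¹ ^ i := by positivity
      have b : 0 ≤ β⁻¹ ^ (N - i) := by positivity
      rw [abs_mul, abs_of_nonneg a]
      nlinarith)).2
  simp only [ne_eq, OfNat.ofNat_ne_zero, not_false_eq_true, zero_pow, mul_zero, add_zero] at h2
  exact mul_le_mul h2 hN.le (by linarith) ((Real.exp_pos _).le.trans h2)

lemma St.G_single (hβ : 1 < β) (hα : ‖α‖ = 1) (h : St β α p q w L D m A)
    (hrec : ∀ v, G μ v = cs v * G μ (v * β⁻¹)) (ht : 0 < μ.real Set.univ)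
    (hW : ∏ k ∈ range L, cs (p * β ^ k) ≠ 0) {g : ℕ} (hg : g * D ^ 2 ≤ 2) :
    Real.exp (-((1 - β⁻¹)⁻¹ + 240)) * (Real.exp (-(1 - β⁻¹)⁻¹) * (μ.real Set.univ / 2))
      ≤ G μ (p * β ^ (L + g) * β⁻¹) / ∏ k ∈ range L, cs (p * β ^ k) := by
  rw [G_up hβ hrec, prod_range_add, mul_assoc, mul_div_cancel_left₀ _ hW]
  have h1 := (h.after hβ hα g).2
  have h2 : Real.exp (-((1 - β⁻¹)⁻¹ + 240)) ≤ Real.exp (-((1 - β⁻¹)⁻¹ + 120 * (g * D ^ 2))) := by
    rw [Real.exp_le_exp]; linarith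
  have h3 := G_small hβ hrec ht (v := p * β⁻¹) (by
    have := h.p_small hβ 1
    rw [pow_one] at this
    linarith [inv_lt_one' hβ])
  exact mul_le_mul (h2.trans h1) h3 (by positivity) ((Real.exp_pos _).le.trans h1)

lemma St.G_pair (hβ : 1 < β) (hα : ‖α‖ = 1) (h : St β α p q w L D m A)
    (hrec : ∀ v, G μ v = cs v * G μ (v * β⁻¹)) (hε : L * (7 * (β⁻¹ ^ L / 20 + D)) ≤ m)
    {σ : ℝ} (hσ : σ = 1 ∨ σ = -1) {M g : ℕ} (hM : L ≤ M) (hg : L ≤ g) :
    G μ (p * β ^ (L + g + M) * β⁻¹ + σ * (p * β ^ M * β⁻¹))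
      ≤ 9 * (∏ k ∈ range L, cs (p * β ^ k)) ^ 2 * μ.real Set.univ := by
  have hβ0 : β ≠ 0 := by positivity
  have hσ1 : |σ| = 1 := by rcases hσ with rfl | rfl <;> simp
  have hσ2 : ∀ x, cs (σ * x) = cs x := by
    intro x
    rcases hσ with rfl | rfl
    · rw [one_mul]
    · rw [neg_one_mul, cs_neg]
  have hD0 := h.hD0
  have e : p * β ^ (L + g + M) * β⁻¹ + σ * (p * β ^ M * β⁻¹)
      = (p + σ * (p * β⁻¹ ^ (L + g))) * β ^ (L + g + M) * β⁻¹ := by
    rw [← pow_add_mul_inv hβ0 (L + g) M]; ring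
  rw [e, G_up hβ hrec]
  refine (le_abs_self _).trans ?_
  rw [abs_mul, Finset.abs_prod, ← sq_abs (∏ k ∈ range L, cs (p * β ^ k)), Finset.abs_prod]
  refine mul_le_mul ?_ (abs_G_le μ _) (abs_nonneg _) (by positivity)
  refine two_windows_upper (g := g) (a := fun k => cs (p * β ^ k))
    (v := fun k => cs ((p + σ * (p * β⁻¹ ^ (L + g))) * β ^ k)) h.hm0 (by positivity) hε
    (by omega) h.mx (fun i hi => ?_) (fun i hi => ?_) (fun i => abs_cs_le _)
  · refine (cs_lip _ _).trans ?_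
    obtain ⟨r, hr⟩ : ∃ r, L + g = i + r := ⟨L + g - i, by omega⟩
    have : (p + σ * (p * β⁻¹ ^ (L + g))) * β ^ i - p * β ^ i = σ * (p * β⁻¹ ^ r) := by
      rw [hr, ← inv_pow_add_mul hβ0 i r]; ring
    rw [this, abs_mul, hσ1, one_mul]
    have h1 := h.p_small hβ r
    have h2 := inv_pow_anti hβ (a := L) (b := r) (by omega)
    linarith
  · obtain ⟨z, j, hz, hj⟩ := near_pos hα h.hw h.int (L + g + i)
    have e1 : (p + σ * (p * β⁻¹ ^ (L + g))) * β ^ (L + g + i)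
        = (σ * (p * β ^ i) - (q * β⁻¹ ^ (L + g + i) + z)) + j := by
      rw [← hj, ← pow_add_mul_inv hβ0 (L + g) i]; ring
    rw [e1, cs_add_int, ← hσ2 (p * β ^ i)]
    refine (cs_lip _ _).trans ?_
    rw [sub_sub_cancel_left, abs_neg, add_assoc L g i]
    have h1 := h.q_small hβ (g + i)
    have h2 := inv_pow_anti hβ (a := L) (b := g + i) (by omega)
    have h3 := abs_add_le (q * β⁻¹ ^ (L + (g + i))) z
    linarith

lemma St.gauss_pair (hβ : 1 < β) (h : St β α p q w L D m A)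
    {σ : ℝ} (hσ : σ = 1 ∨ σ = -1) {i j : ℕ} (hij : i < j) :
    G (gaussianReal 0 1) (p * β ^ (L + 2 * L * j) * β⁻¹ + σ * (p * β ^ (L + 2 * L * i) * β⁻¹))
      ≤ 2 * ((1 / 2) ^ i * (1 / 2) ^ j) := by
  have hβ0 : β ≠ 0 := by positivity
  have hL := h.L_pos hβ
  have h20 := h.twenty_le hβ
  obtain ⟨n, hn, hn'⟩ : ∃ n, L + 2 * L * j = n + (L + 2 * L * i) ∧ L ≤ n := by
    obtain ⟨d, rfl⟩ : ∃ d, j = i + d + 1 := ⟨j - i - 1, by omega⟩
    exact ⟨2 * L * (d + 1), by ring, by nlinarith⟩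
  obtain ⟨r, hr, hr'⟩ : ∃ r, L + 2 * L * j = L + r + 1 ∧ L * j ≤ r := by
    have : 1 ≤ L * j := Nat.mul_pos hL (by omega)
    exact ⟨2 * L * j - 1, by rw [mul_assoc]; omega, by rw [mul_assoc]; omega⟩
  set x := p * β ^ (L + 2 * L * j) * β⁻¹ + σ * (p * β ^ (L + 2 * L * i) * β⁻¹) with hx
  have e : x = (p * β ^ L) * β ^ r * (1 + σ * β⁻¹ ^ n) := by
    have e1 : β ^ (L + 2 * L * i) = β ^ (L + 2 * L * j) * β⁻¹ ^ n := by
      rw [hn, pow_add_mul_inv hβ0]
    have e2 : β ^ (L + 2 * L * j) * β⁻¹ = β ^ L * β ^ r := by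
      rw [hr, pow_succ, pow_add]; field_simp
    rw [hx, e1]
    linear_combination (p + σ * p * β⁻¹ ^ n) * e2
  have hn1 : β⁻¹ ^ n ≤ 1 / 2 := by
    refine (inv_pow_anti hβ hn').trans ?_
    rw [inv_pow, inv_le_comm₀ (by positivity) (by norm_num)]
    linarith
  have hn0 : 0 ≤ β⁻¹ ^ n := by positivity
  have h1 : 1 / 2 ≤ 1 + σ * β⁻¹ ^ n := by rcases hσ with rfl | rfl <;> linarith
  have h2 : (4 : ℝ) ^ j ≤ β ^ r := by
    calc (4 : ℝ) ^ j ≤ (β ^ L) ^ j := pow_le_pow_left₀ (by norm_num) (by linarith) j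
      _ = β ^ (L * j) := by rw [pow_mul]
      _ ≤ β ^ r := pow_le_pow_right₀ hβ.le hr'
  have h4 : (4 : ℝ) ≤ 4 ^ j := by
    calc (4 : ℝ) = 4 ^ 1 := by norm_num
      _ ≤ 4 ^ j := pow_le_pow_right₀ (by norm_num) (by omega)
  have h3 : 4 ^ j / 2 ≤ |x| := by
    rw [e, abs_mul, abs_mul, abs_mul, abs_of_pos (by positivity : 0 < β ^ L),
      abs_of_pos (by positivity : 0 < β ^ r), abs_of_pos (by linarith : 0 < 1 + σ * β⁻¹ ^ n)]
    calc (4 : ℝ) ^ j / 2 = 1 * 4 ^ j * (1 / 2) := by ring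
      _ ≤ _ := by
        have := h.hpL
        gcongr
  rw [G_gauss]
  have h5 : |x| ≤ (2 * π * x) ^ 2 / 2 := by
    have : (2 * π * x) ^ 2 / 2 = 2 * π ^ 2 * |x| ^ 2 := by rw [sq_abs]; ring
    rw [this]
    have := Real.pi_gt_three
    have h6 : 1 ≤ π ^ 2 := by nlinarith
    have h7 : |x| ≤ |x| ^ 2 := by nlinarith
    nlinarith [sq_nonneg |x|]
  have h6 : (4 : ℝ) ^ j / 2 ≤ Real.exp ((2 * π * x) ^ 2 / 2) := by
    have := Real.add_one_le_exp ((2 * π * x) ^ 2 / 2)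
    linarith
  rw [Real.exp_neg]
  calc (Real.exp ((2 * π * x) ^ 2 / 2))⁻¹ ≤ ((4 : ℝ) ^ j / 2)⁻¹ :=
        inv_anti₀ (by positivity) h6
    _ = 2 * ((1 / 2) ^ j * (1 / 2) ^ j) := by
        rw [← mul_pow, inv_div, div_eq_mul_inv, ← inv_pow]; norm_num
    _ ≤ 2 * ((1 / 2) ^ i * (1 / 2) ^ j) := by
        gcongr 2 * (?_ * _)
        exact pow_le_pow_of_le_one (by norm_num) (by norm_num) hij.le

/-- The test function attached to a good state. -/
theorem St.test (hβ : 1 < β) (hα : ‖α‖ = 1) (h : St β α p q w L D m A) (hA : 0 < A)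
    (hrec : ∀ v, G μ v = cs v * G μ (v * β⁻¹)) (ht : 0 < μ.real Set.univ)
    (hε : L * (7 * (β⁻¹ ^ L / 20 + D)) ≤ m) (hE : D * L ≤ 1) {η : ℝ} (hη1 : η ≤ 1)
    (hη : D ^ 2 * L ≤ η * A ^ 2) :
    ∃ ψ : ℝ → ℝ, Continuous ψ ∧ (∃ R, ∀ x, |ψ x| ≤ R) ∧
      Real.exp (-((1 - β⁻¹)⁻¹ + 240)) * (Real.exp (-(1 - β⁻¹)⁻¹) * (μ.real Set.univ / 2))
        ≤ ∫ x, ψ x ∂μ ∧
      ∫ x, ψ x ^ 2 ∂μ ≤ 11 * μ.real Set.univ ∧ ∫ x, ψ x ^ 2 ∂(gaussianReal 0 1) ≤ 18 * η := by
  have hD0 := h.hD0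
  have hD := h.hD
  have hL1 : (1 : ℝ) ≤ L := by exact_mod_cast h.L_pos hβ
  set W := ∏ k ∈ range L, cs (p * β ^ k) with hW
  have hAW : A ≤ |W| := by rw [hW, Finset.abs_prod]; exact h.Ax
  have hW0 : W ≠ 0 := abs_pos.1 (hA.trans_le hAW)
  have hW2 : A ^ 2 ≤ W ^ 2 := by rw [← sq_abs W]; exact pow_le_pow_left₀ hA.le hAW 2
  have hW3 : 0 < W ^ 2 := by positivity
  have hT0 : 0 < D ^ 2 * L := by positivity
  have hT1 : D ^ 2 * L ≤ 1 / 20 := by nlinarith
  set J := ⌊1 / (D ^ 2 * L)⌋₊ with hJ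
  have hJ1 : (J : ℝ) ≤ 1 / (D ^ 2 * L) := Nat.floor_le (by positivity)
  have hJ2 : 1 / (D ^ 2 * L) < J + 1 := Nat.lt_floor_add_one _
  rw [le_div_iff₀ hT0] at hJ1
  rw [div_lt_iff₀ hT0] at hJ2
  have hJ3 : 1 / 2 ≤ J * (D ^ 2 * L) := by nlinarith
  have hJ0 : (0 : ℝ) < J := by
    by_contra c
    have : (J : ℝ) = 0 := le_antisymm (not_lt.1 c) (Nat.cast_nonneg J)
    rw [this] at hJ3
    norm_num at hJ3
  have hJ4 : (1 : ℝ) ≤ J := by
    have : 0 < J := by exact_mod_cast hJ0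
    exact_mod_cast this
  have hη0 : 0 ≤ η := by
    by_contra c
    have : η * A ^ 2 < 0 := mul_neg_of_neg_of_pos (not_le.1 c) (by positivity)
    linarith
  have hJW : 1 ≤ 2 * η * (J * W ^ 2) := by
    have a1 : J * (D ^ 2 * L) ≤ J * (η * W ^ 2) :=
      mul_le_mul_of_nonneg_left (hη.trans (mul_le_mul_of_nonneg_left hW2 hη0)) hJ0.le
    nlinarith
  set v : ℕ → ℝ := fun j => p * β ^ (L + 2 * L * j) * β⁻¹ with hv
  refine ⟨fun x => (∑ j ∈ range J, cs (v j * x)) / (J * W), ?_, ⟨J / |J * W|, fun x => ?_⟩,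
    ?_, ?_, ?_⟩
  · exact (continuous_finsetSum _ (fun j _ => continuous_cs.comp (by fun_prop))).div_const _
  · rw [abs_div]
    gcongr
    refine (Finset.abs_sum_le_sum_abs _ _).trans ?_
    simpa using sum_le_sum (s := range J) (fun j _ => abs_cs_le (v j * x))
  · rw [integral_div, integral_finsetSum _ (fun j _ => integrable_cs μ _), mul_comm (J : ℝ) W,
      ← div_div, le_div_iff₀ hJ0, sum_div]
    have : ∀ j ∈ range J,
        Real.exp (-((1 - β⁻¹)⁻¹ + 240)) * (Real.exp (-(1 - β⁻¹)⁻¹) * (μ.real Set.univ / 2))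
          ≤ (∫ x, cs (v j * x) ∂μ) / W := by
      intro j hj
      refine h.G_single hβ hα hrec ht hW0 (g := 2 * L * j) ?_
      have : (j : ℝ) ≤ J := by exact_mod_cast (mem_range.1 hj).le
      push_cast
      nlinarith
    simpa [mul_comm] using sum_le_sum this
  · simp_rw [div_pow]
    rw [integral_div, div_le_iff₀ (by positivity)]
    have := integral_sq_le μ v (fun _ => 1) J (B := 9 * W ^ 2 * μ.real Set.univ) (by positivity)
      (fun _ => zero_le_one) (fun i j hij _ => by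
        obtain ⟨g, hg, hg'⟩ : ∃ g, L + 2 * L * j = L + g + (L + 2 * L * i) ∧ L ≤ g := by
          obtain ⟨d, rfl⟩ : ∃ d, j = i + d + 1 := ⟨j - i - 1, by omega⟩
          exact ⟨2 * L * d + L, by ring, by omega⟩
        have a := h.G_pair hβ hα hrec hε (σ := -1) (Or.inr rfl) (M := L + 2 * L * i) (by omega) hg'
        have b := h.G_pair hβ hα hrec hε (σ := 1) (Or.inl rfl) (M := L + 2 * L * i) (by omega) hg'
        rw [← hg, neg_one_mul, ← sub_eq_add_neg] at a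
        rw [← hg, one_mul] at b
        simp only [mul_one]
        exact ⟨a, b⟩)
    refine this.trans ?_
    simp only [sum_const, card_range, nsmul_eq_mul, mul_one]
    have a1 : J * μ.real Set.univ * 1 ≤ J * μ.real Set.univ * (2 * 1 * (J * W ^ 2)) := by
      refine mul_le_mul_of_nonneg_left (hJW.trans ?_) (by positivity)
      gcongr
    nlinarith
  · simp_rw [div_pow]
    rw [integral_div, div_le_iff₀ (by positivity)]
    have := integral_sq_le (gaussianReal 0 1) v (fun i => (1 / 2) ^ i) J (B := 2) (by positivity)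
      (fun _ => by positivity) (fun i j hij _ => by
        have a := h.gauss_pair hβ (σ := -1) (Or.inr rfl) hij
        have b := h.gauss_pair hβ (σ := 1) (Or.inl rfl) hij
        rw [neg_one_mul, ← sub_eq_add_neg] at a
        rw [one_mul] at b
        exact ⟨a, b⟩)
    refine this.trans ?_
    have a1 : ∑ j ∈ range J, ((1 : ℝ) / 2) ^ j ≤ 2 := by
      have := geom_le (l := 1 / 2) (by norm_num) (by norm_num) J
      norm_num at this ⊢
      exact this
    have a2 : (∑ j ∈ range J, ((1 : ℝ) / 2) ^ j) ^ 2 ≤ 2 ^ 2 :=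
      pow_le_pow_left₀ (by positivity) a1 2
    have a3 : 9 * (J : ℝ) * 1 ≤ 9 * J * (2 * η * (J * W ^ 2)) :=
      mul_le_mul_of_nonneg_left hJW (by positivity)
    simp only [probReal_univ, mul_one]
    nlinarith

end

/-- A finite measure that is absolutely continuous cannot be separated by test functions. -/
lemma no_separation {μ γ : Measure ℝ} [IsFiniteMeasure μ] [IsFiniteMeasure γ] (hac : μ ≪ γ)
    {c B : ℝ} (hc : 0 < c) (hB : 0 < B)
    (H : ∀ η : ℝ, 0 < η → ∃ ψ : ℝ → ℝ, Continuous ψ ∧ (∃ R, ∀ x, |ψ x| ≤ R) ∧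
      c ≤ ∫ x, ψ x ∂μ ∧ ∫ x, ψ x ^ 2 ∂μ ≤ B ∧ ∫ x, ψ x ^ 2 ∂γ ≤ η) : False := by
  set t := μ.real Set.univ with ht
  have ht0 : 0 ≤ t := measureReal_nonneg
  set τ := c / (4 * (t + 1)) with hτ
  have hτ0 : 0 < τ := by positivity
  set M := 4 * B / c with hM
  have hM0 : 0 < M := by positivity
  obtain ⟨δ, hδ0, hδ⟩ := exists_pos_setLIntegral_lt_of_measure_lt (μ := γ) (f := μ.rnDeriv γ)
    (Measure.lintegral_rnDeriv_lt_top μ γ).ne (ε := ENNReal.ofReal (c / (4 * M)))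
    (by simp; positivity)
  obtain ⟨d, hd0, hd⟩ : ∃ d : ℝ, 0 < d ∧ ENNReal.ofReal d < δ := by
    obtain ⟨r, hr0, hr⟩ := ENNReal.lt_iff_exists_nnreal_btwn.1 hδ0
    exact ⟨r, by exact_mod_cast hr0, by simpa using hr⟩
  obtain ⟨ψ, hψ, ⟨R, hR⟩, h1, h2, h3⟩ := H (d * τ ^ 2) (by positivity)
  have hint1 : ∀ (ρ : Measure ℝ) [IsFiniteMeasure ρ], Integrable ψ ρ := fun ρ _ =>
    Integrable.of_bound hψ.aestronglyMeasurable R (ae_of_all _ hR)
  have hint2 : ∀ (ρ : Measure ℝ) [IsFiniteMeasure ρ], Integrable (fun x => ψ x ^ 2) ρ :=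
    fun ρ _ => Integrable.of_bound (hψ.pow 2).aestronglyMeasurable (R ^ 2) (ae_of_all _ (fun x => by
      rw [Real.norm_eq_abs, abs_pow]
      exact pow_le_pow_left₀ (abs_nonneg _) (hR x) 2))
  set S := {x | τ ^ 2 ≤ ψ x ^ 2} with hS
  have hSm : MeasurableSet S := (isClosed_le continuous_const (hψ.pow 2)).measurableSet
  have hγS : γ.real S ≤ d := by
    have := mul_meas_ge_le_integral_of_nonneg (μ := γ) (f := fun x => ψ x ^ 2)
      (ae_of_all _ (fun x => sq_nonneg _)) (hint2 γ) (τ ^ 2)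
    have h4 : τ ^ 2 * γ.real S ≤ τ ^ 2 * d := by linarith
    exact le_of_mul_le_mul_left h4 (by positivity)
  have hμS : μ.real S ≤ c / (4 * M) := by
    have h4 : γ S < δ := by
      refine lt_of_le_of_lt ?_ hd
      rw [← ofReal_measureReal]
      exact ENNReal.ofReal_le_ofReal hγS
    have h5 := hδ S h4
    rw [Measure.setLIntegral_rnDeriv hac] at h5
    exact ENNReal.toReal_le_of_le_ofReal (by positivity) h5.le
  have hpt : ∀ x, ψ x ≤ τ + S.indicator (fun _ => M) x + ψ x ^ 2 / M := by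
    intro x
    have a : 0 ≤ ψ x ^ 2 / M := by positivity
    by_cases hx : x ∈ S
    · rw [Set.indicator_of_mem hx]
      have : ψ x - M ≤ ψ x ^ 2 / M := by
        rw [le_div_iff₀ hM0]
        nlinarith [sq_nonneg (ψ x - M), sq_nonneg (ψ x)]
      linarith
    · rw [Set.indicator_of_notMem hx]
      have b : ψ x ^ 2 < τ ^ 2 := not_le.1 hx
      have := (abs_lt_of_sq_lt_sq' b hτ0.le).2
      linarith
  have hI : Integrable (S.indicator (fun _ => M)) μ := (integrable_const M).indicator hSm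
  have h6 : ∫ x, ψ x ∂μ ≤ ∫ x, (τ + S.indicator (fun _ => M) x + ψ x ^ 2 / M) ∂μ :=
    integral_mono (hint1 μ) (((integrable_const τ).add hI).add ((hint2 μ).div_const M)) hpt
  have hI2 : Integrable (fun x => τ + S.indicator (fun _ => M) x) μ := (integrable_const τ).add hI
  rw [integral_add hI2 ((hint2 μ).div_const M),
    integral_add (integrable_const τ) hI, integral_const, integral_indicator_const _ hSm,
    integral_div, smul_eq_mul, smul_eq_mul] at h6
  have a1 : t * τ ≤ c / 4 := by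
    rw [hτ, ← mul_div_assoc, div_le_div_iff₀ (by positivity) (by norm_num)]
    nlinarith
  have a2 : μ.real S * M ≤ c / 4 := by
    calc μ.real S * M ≤ c / (4 * M) * M := mul_le_mul_of_nonneg_right hμS hM0.le
      _ = c / 4 := by field_simp
  have a3 : (∫ x, ψ x ^ 2 ∂μ) / M ≤ c / 4 := by
    calc (∫ x, ψ x ^ 2 ∂μ) / M ≤ B / M := by gcongr
      _ = c / 4 := by rw [hM]; field_simp
  linarith

theorem no_ac {β : ℝ} {α : ℂ} {p q : ℝ} {w : ℂ} {L : ℕ} {D m A : ℝ} (hβ : 1 < β) (hα : ‖α‖ = 1)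
    (h : St β α p q w L D m A) (μ : Measure ℝ) [IsFiniteMeasure μ] (hac : μ ≪ volume)
    (hrec : ∀ t, charFun μ t = (Real.cos t : ℝ) * charFun μ (β⁻¹ * t)) : μ = 0 := by
  by_contra hne
  have ht : 0 < μ.real Set.univ := by
    refine ENNReal.toReal_pos ?_ (measure_ne_top _ _)
    simpa using hne
  refine no_separation (μ := μ) (γ := gaussianReal 0 1)
    (hac.trans (gaussianReal_absolutelyContinuous' 0 one_ne_zero))
    (c := Real.exp (-((1 - β⁻¹)⁻¹ + 240)) * (Real.exp (-(1 - β⁻¹)⁻¹) * (μ.real Set.univ / 2)))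
    (B := 11 * μ.real Set.univ) (by positivity) (by positivity) (fun η hη => ?_)
  obtain ⟨p', q', w', L', D', m', A', s, a1, a2, a3, a4⟩ :=
    h.exists_good hβ hα (η := min 1 (η / 18)) (by positivity)
  obtain ⟨ψ, b1, b2, b3, b4, b5⟩ := s.test hβ hα a1 (G_rec hrec) ht a2 a3 (min_le_left _ _) a4
  refine ⟨ψ, b1, b2, b3, b4, b5.trans ?_⟩
  have := min_le_right 1 (η / 18)
  linarith

end Crest.Agent.R104
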